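import Mathlib

/-!
Two combinatorial lemmas: the alteration lemma and the core lemma. Blueprint section 2.
-/

namespace Vale.Agent.Lib.P090K

open Finset

/-- The weight of the supersets of `C` in the product measure on the subsets of `A`. -/
private lemma alt_sum_super {E : Type} [DecidableEq E] (A C : Finset E) (hC : C ⊆ A) (p : ℝ) :
    ∑ S ∈ A.powerset, (if C ⊆ S then p ^ S.card * (1 - p) ^ (A.card - S.card) else 0) =
      p ^ C.card := by
  rw [← Finset.sum_filter]
  have himg : (A.powerset.filter fun S => C ⊆ S) = (A \ C).powerset.image (fun T => C ∪ T) := by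
    ext S
    simp only [mem_filter, mem_powerset, mem_image]
    constructor
    · rintro ⟨h1, h2⟩
      refine ⟨S \ C, sdiff_subset_sdiff h1 (Subset.refl _), ?_⟩
      exact union_sdiff_of_subset h2
    · rintro ⟨T, hT, rfl⟩
      refine ⟨union_subset hC (hT.trans sdiff_subset), subset_union_left⟩
  have hinj : Set.InjOn (fun T => C ∪ T) ((A \ C).powerset : Set (Finset E)) := by
    intro T1 h1 T2 h2 h
    have h1' : T1 ⊆ A \ C := mem_powerset.mp h1
    have h2' : T2 ⊆ A \ C := mem_powerset.mp h2
    have hd1 : Disjoint C T1 := disjoint_of_subset_right h1' disjoint_sdiff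
    have hd2 : Disjoint C T2 := disjoint_of_subset_right h2' disjoint_sdiff
    have e1 : (C ∪ T1) \ C = T1 := by rw [union_sdiff_cancel_left hd1]
    have e2 : (C ∪ T2) \ C = T2 := by rw [union_sdiff_cancel_left hd2]
    simp only at h
    rw [← e1, h, e2]
  rw [himg, sum_image hinj]
  have hterm : ∀ T ∈ (A \ C).powerset,
      p ^ (C ∪ T).card * (1 - p) ^ (A.card - (C ∪ T).card) =
        p ^ C.card * (p ^ T.card * (1 - p) ^ ((A \ C).card - T.card)) := by
    intro T hT
    have hT' : T ⊆ A \ C := mem_powerset.mp hT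
    have hd : Disjoint C T := disjoint_of_subset_right hT' disjoint_sdiff
    rw [card_union_of_disjoint hd, pow_add, card_sdiff_of_subset hC]
    have h3 : A.card - (C.card + T.card) = A.card - C.card - T.card := by omega
    rw [h3]
    ring
  rw [sum_congr rfl hterm, ← mul_sum, sum_pow_mul_eq_add_pow]
  simp

private lemma alt_avg {E ι : Type} [DecidableEq E] [Fintype ι] (A : Finset E) (C : ι → Finset E)
    (hC : ∀ i, C i ⊆ A) (p : ℝ) (h0 : 0 ≤ p) (h1 : p ≤ 1) :
    ∃ S, S ⊆ A ∧ p * (A.card : ℝ) - ∑ i, p ^ (C i).card ≤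
      (S.card : ℝ) - ((univ.filter fun i => C i ⊆ S).card : ℝ) := by
  classical
  set v := p * (A.card : ℝ) - ∑ i, p ^ (C i).card with hv
  set w : Finset E → ℝ := fun S => p ^ S.card * (1 - p) ^ (A.card - S.card) with hw
  have hw0 : ∀ S, 0 ≤ w S := fun S => mul_nonneg (pow_nonneg h0 _) (pow_nonneg (by linarith) _)
  have hsum1 : ∑ S ∈ A.powerset, w S = 1 := by
    have := sum_pow_mul_eq_add_pow p (1 - p) A
    simpa [hw] using this
  have hcardS : ∀ S ∈ A.powerset, (S.card : ℝ) = ∑ a ∈ A, if ({a} : Finset E) ⊆ S then (1 : ℝ) else 0 := by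
    intro S hS
    have hS' : S ⊆ A := mem_powerset.mp hS
    have h2 : ∑ a ∈ A, (if ({a} : Finset E) ⊆ S then (1 : ℝ) else 0) =
        ∑ a ∈ A, (if a ∈ S then (1 : ℝ) else 0) := by
      refine sum_congr rfl fun a _ => ?_
      simp only [singleton_subset_iff]
    rw [h2, sum_ite_mem, inter_eq_right.mpr hS']
    simp
  have hfilter : ∀ S : Finset E, ((univ.filter fun i => C i ⊆ S).card : ℝ) =
      ∑ i, if C i ⊆ S then (1 : ℝ) else 0 := by
    intro S
    rw [card_filter]
    push_cast
    rfl
  have havg : ∑ S ∈ A.powerset, w S * ((S.card : ℝ) - ((univ.filter fun i => C i ⊆ S).card : ℝ)) = v := by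
    have h3 : ∑ S ∈ A.powerset, w S * (S.card : ℝ) = p * (A.card : ℝ) := by
      calc ∑ S ∈ A.powerset, w S * (S.card : ℝ)
          = ∑ S ∈ A.powerset, ∑ a ∈ A, (if ({a} : Finset E) ⊆ S then w S else 0) := by
            refine sum_congr rfl fun S hS => ?_
            rw [hcardS S hS, mul_sum]
            refine sum_congr rfl fun a _ => ?_
            split_ifs <;> simp
        _ = ∑ a ∈ A, ∑ S ∈ A.powerset, (if ({a} : Finset E) ⊆ S then w S else 0) := sum_comm
        _ = ∑ a ∈ A, p := by
            refine sum_congr rfl fun a ha => ?_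
            have := alt_sum_super A {a} (singleton_subset_iff.mpr ha) p
            simpa [hw] using this
        _ = p * (A.card : ℝ) := by simp [mul_comm]
    have h4 : ∑ S ∈ A.powerset, w S * ((univ.filter fun i => C i ⊆ S).card : ℝ) = ∑ i, p ^ (C i).card := by
      calc ∑ S ∈ A.powerset, w S * ((univ.filter fun i => C i ⊆ S).card : ℝ)
          = ∑ S ∈ A.powerset, ∑ i, (if C i ⊆ S then w S else 0) := by
            refine sum_congr rfl fun S _ => ?_
            rw [hfilter S, mul_sum]
            refine sum_congr rfl fun i _ => ?_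
            split_ifs <;> simp
        _ = ∑ i, ∑ S ∈ A.powerset, (if C i ⊆ S then w S else 0) := sum_comm
        _ = ∑ i, p ^ (C i).card := by
            refine sum_congr rfl fun i _ => ?_
            exact alt_sum_super A (C i) (hC i) p
    simp only [mul_sub]
    rw [sum_sub_distrib, h3, h4]
  by_contra hcon
  have hlt : ∀ S ∈ A.powerset, (S.card : ℝ) - ((univ.filter fun i => C i ⊆ S).card : ℝ) < v := by
    intro S hS
    by_contra h
    exact hcon ⟨S, mem_powerset.mp hS, not_lt.mp h⟩
  have hpos : ∃ S ∈ A.powerset, 0 < w S := by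
    by_contra hno
    have hall : ∀ S ∈ A.powerset, w S = 0 := by
      intro S hS
      by_contra h
      exact hno ⟨S, hS, lt_of_le_of_ne (hw0 S) (Ne.symm h)⟩
    rw [sum_eq_zero hall] at hsum1
    exact zero_ne_one hsum1
  obtain ⟨S0, hS0, hS0pos⟩ := hpos
  have hstrict : ∑ S ∈ A.powerset, w S * ((S.card : ℝ) - ((univ.filter fun i => C i ⊆ S).card : ℝ)) <
      ∑ S ∈ A.powerset, w S * v := by
    refine sum_lt_sum (fun S hS => mul_le_mul_of_nonneg_left (hlt S hS).le (hw0 S)) ⟨S0, hS0, ?_⟩
    exact mul_lt_mul_of_pos_left (hlt S0 hS0) hS0pos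
  rw [havg, ← sum_mul, hsum1, one_mul] at hstrict
  exact lt_irrefl _ hstrict

/-- Alteration: a subset `K` of `A` containing no `C i` with `|K| ≥ p|A| - ∑ p^|C i|`. -/
theorem alteration {E ι : Type} [DecidableEq E] [Fintype ι] (A : Finset E) (C : ι → Finset E)
    (hC : ∀ i, C i ⊆ A) (hne : ∀ i, (C i).Nonempty) (p : ℝ) (h0 : 0 ≤ p) (h1 : p ≤ 1) :
    ∃ K, K ⊆ A ∧ (∀ i, ¬ C i ⊆ K) ∧
      p * (A.card : ℝ) - ∑ i, p ^ (C i).card ≤ (K.card : ℝ) := by
  classical
  obtain ⟨S, hS, hv⟩ := alt_avg A C hC p h0 h1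
  choose x hx using hne
  set B := univ.filter fun i => C i ⊆ S with hB
  refine ⟨S \ B.image x, sdiff_subset.trans hS, ?_, ?_⟩
  · intro i hi
    have h2 : x i ∈ S \ B.image x := hi (hx i)
    have h3 := mem_sdiff.mp h2
    have hsub : C i ⊆ S := hi.trans sdiff_subset
    exact h3.2 (mem_image_of_mem x (mem_filter.mpr ⟨mem_univ _, hsub⟩))
  · refine hv.trans ?_
    have h2 : (S.card : ℝ) - (B.card : ℝ) ≤ ((S \ B.image x).card : ℝ) := by
      have h3 : S.card ≤ (S \ B.image x).card + (B.image x).card := card_le_card_sdiff_add_card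
      have h4 : (B.image x).card ≤ B.card := card_image_le
      have h5 : S.card ≤ (S \ B.image x).card + B.card := by omega
      have h6 : (S.card : ℝ) ≤ ((S \ B.image x).card : ℝ) + (B.card : ℝ) := by exact_mod_cast h5
      linarith
    exact h2

/-- Core lemma: if a finite multigraph has more than twice as many edges as vertices then some
nonempty subset `W` of vertices induces a subgraph in which every vertex meets at least `3` edges. -/
theorem core_exists {U Ed : Type} [DecidableEq U] [DecidableEq Ed] (K : Finset Ed)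
    (src dst : Ed → U) (Vs : Finset U) (hK : ∀ e ∈ K, src e ∈ Vs ∧ dst e ∈ Vs)
    (hbig : 2 * Vs.card < K.card) :
    ∃ W, W ⊆ Vs ∧ W.Nonempty ∧ ∀ x ∈ W,
      3 ≤ (K.filter (fun e => src e ∈ W ∧ dst e ∈ W ∧ (src e = x ∨ dst e = x))).card := by
  classical
  let eW : Finset U → ℕ := fun W => (K.filter (fun e => src e ∈ W ∧ dst e ∈ W)).card
  have hmain : ∀ n : ℕ, ∀ W : Finset U, W.card = n → W ⊆ Vs → 2 * W.card < eW W →
      ∃ W', W' ⊆ Vs ∧ W'.Nonempty ∧ ∀ x ∈ W',
        3 ≤ (K.filter (fun e => src e ∈ W' ∧ dst e ∈ W' ∧ (src e = x ∨ dst e = x))).card := by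
    intro n
    induction n using Nat.strong_induction_on with
    | _ n ih =>
      intro W hWn hWV hW
      by_cases hall : ∀ x ∈ W, 3 ≤ (K.filter (fun e => src e ∈ W ∧ dst e ∈ W ∧ (src e = x ∨ dst e = x))).card
      · refine ⟨W, hWV, ?_, hall⟩
        have hpos : 0 < eW W := by omega
        obtain ⟨e, he⟩ := card_pos.mp hpos
        exact ⟨src e, (mem_filter.mp he).2.1⟩
      · push Not at hall
        obtain ⟨x, hx, hdeg⟩ := hall
        have hle : eW W ≤ eW (W.erase x) +
            (K.filter (fun e => src e ∈ W ∧ dst e ∈ W ∧ (src e = x ∨ dst e = x))).card := by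
          show (K.filter (fun e => src e ∈ W ∧ dst e ∈ W)).card ≤ _
          refine (card_le_card ?_).trans (card_union_le _ _)
          intro e he
          obtain ⟨he1, he2, he3⟩ := mem_filter.mp he
          by_cases hh : src e = x ∨ dst e = x
          · exact mem_union_right _ (mem_filter.mpr ⟨he1, he2, he3, hh⟩)
          · have h5 : src e ≠ x := fun h => hh (Or.inl h)
            have h6 : dst e ≠ x := fun h => hh (Or.inr h)
            exact mem_union_left _ (mem_filter.mpr ⟨he1, mem_erase.mpr ⟨h5, he2⟩, mem_erase.mpr ⟨h6, he3⟩⟩)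
        have hcard : (W.erase x).card + 1 = W.card := card_erase_add_one hx
        exact ih (W.erase x).card (by omega) (W.erase x) rfl ((erase_subset _ _).trans hWV) (by omega)
  refine hmain _ Vs rfl (Subset.refl _) ?_
  have : K.filter (fun e => src e ∈ Vs ∧ dst e ∈ Vs) = K := by
    rw [filter_eq_self]
    exact hK
  show 2 * Vs.card < (K.filter (fun e => src e ∈ Vs ∧ dst e ∈ Vs)).card
  rw [this]
  exact hbig

end Vale.Agent.Lib.P090K
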