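import Vale.Agent.Lib.P090K.Words

/-!
The word metric on a quotient of the free group, hubs (a maximal separated set), the clamp function.
Blueprint section 3.
-/

namespace Vale.Agent.Lib.P090K

open FreeGroup

section
variable {α Q : Type} [DecidableEq α] [Group Q] (ψ : FreeGroup α →* Q)

theorem wd_spec (hψ : Function.Surjective ψ) (g h : Q) :
    ∃ w : FreeGroup α, norm w = wd ψ g h ∧ ψ w = g⁻¹ * h := by
  have hne : {n | ∃ w : FreeGroup α, FreeGroup.norm w = n ∧ ψ w = g⁻¹ * h}.Nonempty := by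
    obtain ⟨w, hw⟩ := hψ (g⁻¹ * h)
    exact ⟨_, w, rfl, hw⟩
  exact Nat.sInf_mem hne

theorem wd_le {g h : Q} {w : FreeGroup α} (hw : ψ w = g⁻¹ * h) : wd ψ g h ≤ norm w :=
  Nat.sInf_le ⟨w, rfl, hw⟩

theorem wd_self (g : Q) : wd ψ g g = 0 := by
  have h := wd_le ψ (g := g) (h := g) (w := 1) (by simp)
  simpa using h

theorem wd_comm_le (hψ : Function.Surjective ψ) (g h : Q) : wd ψ g h ≤ wd ψ h g := by
  obtain ⟨w, hw, hw'⟩ := wd_spec ψ hψ h g
  have h1 : ψ w⁻¹ = g⁻¹ * h := by
    rw [_root_.map_inv, hw']; simp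
  have h2 := wd_le ψ h1
  rw [FreeGroup.norm_inv_eq] at h2
  omega

theorem wd_comm (hψ : Function.Surjective ψ) (g h : Q) : wd ψ g h = wd ψ h g :=
  le_antisymm (wd_comm_le ψ hψ g h) (wd_comm_le ψ hψ h g)

theorem wd_triangle (hψ : Function.Surjective ψ) (g h k : Q) :
    wd ψ g k ≤ wd ψ g h + wd ψ h k := by
  obtain ⟨w, hw, hw'⟩ := wd_spec ψ hψ g h
  obtain ⟨v, hv, hv'⟩ := wd_spec ψ hψ h k
  have h1 : ψ (w * v) = g⁻¹ * k := by
    rw [_root_.map_mul, hw', hv']; group
  have h2 := wd_le ψ h1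
  have h3 := FreeGroup.norm_mul_le w v
  omega

theorem wd_step (g : Q) (l : α × Bool) : wd ψ g (g * ψ (ltr l)) ≤ 1 := by
  have h1 : ψ (ltr l) = g⁻¹ * (g * ψ (ltr l)) := by group
  have h2 := wd_le ψ h1
  rwa [norm_ltr] at h2

/-- Maximal separated subset with a nearest point map. -/
theorem exists_hubs (hψ : Function.Surjective ψ) [Fintype Q] (ρ : ℕ) (hρ : 0 < ρ) :
    ∃ (A : Finset Q) (hubOf : Q → Q), (∀ g, hubOf g ∈ A) ∧ (∀ g, wd ψ g (hubOf g) < ρ) ∧
      (∀ g, ∀ a ∈ A, wd ψ g (hubOf g) ≤ wd ψ g a) ∧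
      (∀ a ∈ A, ∀ b ∈ A, a ≠ b → ρ ≤ wd ψ a b) := by
  classical
  let P : Finset Q → Prop := fun A => ∀ a ∈ A, ∀ b ∈ A, a ≠ b → ρ ≤ wd ψ a b
  have hP : ∃ A ∈ (Finset.univ : Finset (Finset Q)).filter P,
      ∀ B ∈ (Finset.univ : Finset (Finset Q)).filter P, B.card ≤ A.card := by
    apply Finset.exists_max_image
    exact ⟨∅, by simp [P]⟩
  obtain ⟨A, hA, hmax⟩ := hP
  have hAP : P A := (Finset.mem_filter.mp hA).2
  have hnear : ∀ g, ∃ a ∈ A, wd ψ g a < ρ := by
    intro g
    by_contra hcon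
    push Not at hcon
    have hg : g ∉ A := by
      intro hg
      have := hcon g hg
      rw [wd_self] at this
      omega
    have hins : P (insert g A) := by
      intro a ha b hb hab
      rcases Finset.mem_insert.mp ha with ha' | ha'
      · rcases Finset.mem_insert.mp hb with hb' | hb'
        · exact absurd (ha'.trans hb'.symm) hab
        · rw [ha']; exact hcon b hb'
      · rcases Finset.mem_insert.mp hb with hb' | hb'
        · rw [wd_comm ψ hψ, hb']; exact hcon a ha'
        · exact hAP a ha' b hb' hab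
    have := hmax (insert g A) (Finset.mem_filter.mpr ⟨Finset.mem_univ _, hins⟩)
    rw [Finset.card_insert_of_notMem hg] at this
    omega
  have hmin : ∀ g, ∃ a ∈ A, ∀ b ∈ A, wd ψ g a ≤ wd ψ g b := by
    intro g
    obtain ⟨a, ha, _⟩ := hnear g
    exact Finset.exists_min_image A (fun b => wd ψ g b) ⟨a, ha⟩
  choose hubOf hub1 hub2 using hmin
  refine ⟨A, hubOf, hub1, ?_, fun g a ha => hub2 g a ha, hAP⟩
  intro g
  obtain ⟨a, ha, hlt⟩ := hnear g
  exact lt_of_le_of_lt (hub2 g a ha) hlt

end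

theorem clamp_nonneg (t : ℝ) : 0 ≤ clamp t := le_max_left _ _

theorem clamp_le_one (t : ℝ) : clamp t ≤ 1 :=
  max_le zero_le_one (min_le_left _ _)

theorem clamp_of_one_le {t : ℝ} (h : 1 ≤ t) : clamp t = 1 := by
  unfold clamp
  rw [min_eq_left h]
  exact max_eq_right zero_le_one

theorem clamp_of_nonpos {t : ℝ} (h : t ≤ 0) : clamp t = 0 := by
  unfold clamp
  rw [min_eq_right (by linarith)]
  exact max_eq_left h

theorem clamp_le_of_nonneg {t : ℝ} (h : 0 ≤ t) : clamp t ≤ t :=
  max_le h (min_le_right _ _)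

theorem abs_clamp_sub_le (a b : ℝ) : |clamp a - clamp b| ≤ |a - b| := by
  unfold clamp
  rcases le_total a b with hab | hab
  · rw [abs_sub_comm, abs_sub_comm a b]
    rw [abs_of_nonneg (sub_nonneg.mpr hab)]
    have hmono : max 0 (min 1 a) ≤ max 0 (min 1 b) :=
      max_le_max le_rfl (min_le_min le_rfl hab)
    rw [abs_of_nonneg (sub_nonneg.mpr hmono)]
    rcases le_total b 0 with hb | hb
    · rw [max_eq_left (min_le_of_right_le hb), max_eq_left (min_le_of_right_le (hab.trans hb))]
      linarith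
    · rcases le_total a 0 with ha | ha
      · rw [max_eq_left (min_le_of_right_le ha)]
        have : max 0 (min 1 b) ≤ b := max_le hb (min_le_right _ _)
        linarith
      · rcases le_total a 1 with ha1 | ha1
        · rw [min_eq_right ha1, max_eq_right ha]
          have : max 0 (min 1 b) ≤ b := max_le hb (min_le_right _ _)
          linarith
        · have hb1 : 1 ≤ b := ha1.trans hab
          rw [min_eq_left ha1, min_eq_left hb1]
          simp
          linarith
  · rw [abs_of_nonneg (sub_nonneg.mpr hab)]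
    have hmono : max 0 (min 1 b) ≤ max 0 (min 1 a) :=
      max_le_max le_rfl (min_le_min le_rfl hab)
    rw [abs_of_nonneg (sub_nonneg.mpr hmono)]
    rcases le_total a 0 with ha | ha
    · rw [max_eq_left (min_le_of_right_le ha), max_eq_left (min_le_of_right_le (hab.trans ha))]
      linarith
    · rcases le_total b 0 with hb | hb
      · rw [max_eq_left (min_le_of_right_le hb)]
        have : max 0 (min 1 a) ≤ a := max_le ha (min_le_right _ _)
        linarith
      · rcases le_total b 1 with hb1 | hb1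
        · rw [min_eq_right hb1, max_eq_right hb]
          have : max 0 (min 1 a) ≤ a := max_le ha (min_le_right _ _)
          linarith
        · have ha1 : 1 ≤ a := hb1.trans hab
          rw [min_eq_left hb1, min_eq_left ha1]
          simp
          linarith

end Vale.Agent.Lib.P090K
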