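import Vale.Agent.Lib.P090K.Graph
import Vale.Agent.Lib.P090K.WordMetric

/-!
Windows: components, lifting of walks, partial bijection, no infinite walk of states.
Blueprint section 6.
-/

namespace Vale.Agent.Lib.P090K

open FreeGroup

namespace Frame

variable {α V Q : Type} [DecidableEq α] [Group Q] (F : Frame α V Q)

theorem mem_B_iff {z y : V} : y ∈ F.B z ↔ ∃ w, FreeGroup.norm w < F.W0 ∧ F.ψ w = (F.τ z)⁻¹ * F.τ y := by
  constructor
  · intro h
    obtain ⟨w, hw, hψ⟩ := wd_spec F.ψ F.surj (F.τ z) (F.τ y)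
    exact ⟨w, hw ▸ h, hψ⟩
  · rintro ⟨w, hw, hψ⟩
    exact lt_of_le_of_lt (wd_le F.ψ hψ) hw

/-- Two representatives of the same element of `Q`, of small norm, coincide. -/
theorem girth_eq {a b : FreeGroup α} (h : F.ψ a = F.ψ b) (ha : FreeGroup.norm a + FreeGroup.norm b ≤ 8 * F.rho ^ 2 + 10) :
    a = b := by
  by_contra hne
  have h1 : a⁻¹ * b ≠ 1 := by
    intro h
    exact hne (inv_mul_eq_one.mp h)
  have h2 : FreeGroup.norm (a⁻¹ * b) ≤ 8 * F.rho ^ 2 + 10 := by
    refine le_trans (FreeGroup.norm_mul_le _ _) ?_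
    rw [FreeGroup.norm_inv_eq]
    exact ha
  apply F.girth _ h1 h2
  rw [_root_.map_mul, _root_.map_inv, h, inv_mul_cancel]

theorem tau_read {x y : V} {w : List (α × Bool)} (h : F.G.Read x w y) :
    F.τ y = F.τ x * F.ψ (FreeGroup.mk w) := by
  unfold LG.Read at h
  induction h with
  | nil _ =>
    rw [← FreeGroup.one_eq_mk, _root_.map_one, mul_one]
  | cons _ hE _ ih =>
    rw [ih, F.τ_step hE, mk_cons_eq, _root_.map_mul, mul_assoc]

theorem piece_read {x y : V} {w : List (α × Bool)} (h : F.G.Read x w y) :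
    F.piece y = F.piece x := by
  unfold LG.Read at h
  induction h with
  | nil _ => rfl
  | cons _ hE _ ih => rw [ih, F.piece_step hE]

theorem mem_comp_self {z p : V} (h : p ∈ F.B z) : p ∈ F.comp z p :=
  ⟨[], LG.ReadIn.nil h⟩

theorem comp_subset_B (z p : V) : F.comp z p ⊆ F.B z := by
  rintro y ⟨u, hu⟩
  exact hu.right_mem

theorem comp_eq_of_mem {z p y : V} (h : y ∈ F.comp z p) : F.comp z y = F.comp z p := by
  obtain ⟨u, hu⟩ := h
  ext y'
  constructor
  · rintro ⟨v, hv⟩
    exact ⟨u ++ v, hu.append hv⟩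
  · rintro ⟨v, hv⟩
    exact ⟨invRev u ++ v, hu.reverse.append hv⟩

theorem comp_eq_of_step {z x y : V} {l : α × Bool} (hx : x ∈ F.B z) (hy : y ∈ F.B z)
    (h : F.G.E x l y) : F.comp z x = F.comp z y := by
  have : y ∈ F.comp z x := ⟨[l], LG.ReadIn.cons hx h (LG.ReadIn.nil hy)⟩
  exact (F.comp_eq_of_mem this).symm

theorem piece_of_mem_comp {z p y : V} (h : y ∈ F.comp z p) : F.piece y = F.piece p := by
  obtain ⟨u, hu⟩ := h
  exact F.piece_read hu.read

/-- Lifting a walk inside a window to the free group. -/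
theorem lift {z y y' : V} {u : List (α × Bool)} {X : FreeGroup α}
    (h : F.G.ReadIn (F.B z) y u y') (hψ : F.ψ X = (F.τ z)⁻¹ * F.τ y) (hX : FreeGroup.norm X < F.W0) :
    F.ψ (X * FreeGroup.mk u) = (F.τ z)⁻¹ * F.τ y' ∧ FreeGroup.norm (X * FreeGroup.mk u) < F.W0 := by
  induction h generalizing X with
  | nil _ =>
    rw [← FreeGroup.one_eq_mk, mul_one]
    exact ⟨hψ, hX⟩
  | @cons a b c l w _ hE hrest ih =>
    have hψ1 : F.ψ (X * ltr l) = (F.τ z)⁻¹ * F.τ b := by
      rw [_root_.map_mul, hψ, F.τ_step hE, mul_assoc]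
    have hb : b ∈ F.B z := hrest.left_mem
    obtain ⟨X', hX', hψ'⟩ := (F.mem_B_iff).mp hb
    have hn1 : FreeGroup.norm (X * ltr l) ≤ FreeGroup.norm X + 1 := by
      refine le_trans (FreeGroup.norm_mul_le _ _) ?_
      rw [norm_ltr]
    have hW : F.W0 = 2 * F.rho ^ 2 := rfl
    have heq : X' = X * ltr l := by
      apply F.girth_eq (hψ'.trans hψ1.symm)
      omega
    have hX1 : FreeGroup.norm (X * ltr l) < F.W0 := heq ▸ hX'
    have := ih hψ1 hX1
    rwa [mk_cons_eq, ← mul_assoc]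

/-- A reduced walk whose two ends have short lifts stays in the window. -/
theorem transfer_aux {z' a b : V} {w : List (α × Bool)} (h : F.G.Read a w b) :
    ∀ (g : FreeGroup α), F.ψ g = (F.τ z')⁻¹ * F.τ a → FreeGroup.IsReduced w →
      FreeGroup.norm g < F.W0 → FreeGroup.norm (g * FreeGroup.mk w) < F.W0 →
      F.G.ReadIn (F.B z') a w b := by
  induction h with
  | nil _ =>
    intro g hg _ hn _
    exact LG.ReadIn.nil (F.mem_B_iff.2 ⟨g, hn, hg⟩)
  | @cons x c b0 l0 w' _ hEx _ ih =>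
    intro g hg hred hn hend
    have hmem : x ∈ F.B z' := F.mem_B_iff.2 ⟨g, hn, hg⟩
    have hred' : FreeGroup.IsReduced w' :=
      isReduced_of_factor hred ⟨[l0], [], by simp⟩
    have hψ : F.ψ (g * ltr l0) = (F.τ z')⁻¹ * F.τ c := by
      rw [_root_.map_mul, hg, F.τ_step hEx]
      group
    have hv := valley (u₁ := [l0]) (u₂ := w') (by simpa using hred) g
    have he1 : g * FreeGroup.mk [l0] = g * ltr l0 := rfl
    have he2 : g * FreeGroup.mk ([l0] ++ w') = g * ltr l0 * FreeGroup.mk w' := by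
      rw [mul_assoc, ← mk_cons_eq]
      rfl
    have he3 : g * FreeGroup.mk (l0 :: w') = g * ltr l0 * FreeGroup.mk w' := by
      rw [mul_assoc, ← mk_cons_eq]
    rw [he1, he2] at hv
    rw [he3] at hend
    have hn1 : FreeGroup.norm (g * ltr l0) < F.W0 := lt_of_le_of_lt hv (max_lt hn hend)
    exact LG.ReadIn.cons hmem hEx (ih _ hψ hred' hn1 hend)

/-- Transfer of connectivity between adjacent windows (valley lemma). -/
theorem transfer {z z' y y' : V} {l : α × Bool} (hE : F.G.E z l z') {u : List (α × Bool)}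
    (h : F.G.ReadIn (F.B z) y u y') (hy : y ∈ F.B z') (hy' : y' ∈ F.B z') :
    y' ∈ F.comp z' y := by
  have hu := h.reduce
  have hred : FreeGroup.IsReduced (FreeGroup.reduce u) := FreeGroup.IsReduced.of_reduce_eq FreeGroup.reduce.idem
  obtain ⟨X, hXn, hXψ⟩ := F.mem_B_iff.1 hu.left_mem
  obtain ⟨hlψ, hln⟩ := F.lift hu hXψ hXn
  obtain ⟨X₁, hX₁n, hX₁ψ⟩ := F.mem_B_iff.1 hy
  obtain ⟨X₂, hX₂n, hX₂ψ⟩ := F.mem_B_iff.1 hy'
  have hτ : F.τ z' = F.τ z * F.ψ (ltr l) := F.τ_step hE
  have hW : F.W0 = 2 * F.rho ^ 2 := rfl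
  -- the two lifts at `z'`
  have hX₁e : (ltr l)⁻¹ * X = X₁ := by
    refine F.girth_eq ?_ ?_
    · rw [_root_.map_mul, _root_.map_inv, hXψ, hX₁ψ, hτ]
      group
    · have h1 := FreeGroup.norm_mul_le (ltr l)⁻¹ X
      rw [FreeGroup.norm_inv_eq, norm_ltr] at h1
      rw [hW] at hXn hX₁n
      omega
  have hX₂e : (ltr l)⁻¹ * (X * FreeGroup.mk (FreeGroup.reduce u)) = X₂ := by
    refine F.girth_eq ?_ ?_
    · rw [_root_.map_mul, _root_.map_inv, hlψ, hX₂ψ, hτ]
      group
    · have h1 := FreeGroup.norm_mul_le (ltr l)⁻¹ (X * FreeGroup.mk (FreeGroup.reduce u))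
      rw [FreeGroup.norm_inv_eq, norm_ltr] at h1
      rw [hW] at hln hX₂n
      omega
  have hend : FreeGroup.norm (X₁ * FreeGroup.mk (FreeGroup.reduce u)) < F.W0 := by
    rw [← hX₁e, mul_assoc, hX₂e]
    exact hX₂n
  exact ⟨FreeGroup.reduce u, F.transfer_aux hu.read X₁ hX₁ψ hred hX₁n hend⟩

/-- Partial bijection between the components of adjacent windows. -/
theorem partner_unique {z z' : V} {l : α × Bool} (hE : F.G.E z l z') {D D' D'' : Set V}
    (hD : ∃ p, D = F.comp z p) (hD' : ∃ q, D' = F.comp z' q) (hD'' : ∃ q, D'' = F.comp z' q)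
    (h1 : (D ∩ D').Nonempty) (h2 : (D ∩ D'').Nonempty) : D' = D'' := by
  obtain ⟨p, rfl⟩ := hD
  obtain ⟨q, rfl⟩ := hD'
  obtain ⟨q', rfl⟩ := hD''
  obtain ⟨y', hy'1, hy'2⟩ := h1
  obtain ⟨y'', hy''1, hy''2⟩ := h2
  obtain ⟨u1, hu1⟩ := hy'1
  obtain ⟨u2, hu2⟩ := hy''1
  have hwalk := hu1.reverse.append hu2
  have hm : y'' ∈ F.comp z' y' :=
    F.transfer hE hwalk (F.comp_subset_B z' q hy'2) (F.comp_subset_B z' q' hy''2)
  have e1 : F.comp z' y' = F.comp z' q := F.comp_eq_of_mem hy'2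
  have e2 : F.comp z' y'' = F.comp z' q' := F.comp_eq_of_mem hy''2
  have e3 : F.comp z' y'' = F.comp z' y' := F.comp_eq_of_mem hm
  rw [← e1, ← e2, e3]

/-- There is no infinite non-backtracking walk of states over piece `N` carried by a lower piece. -/
theorem no_walk {N m : ℕ} (hm : m < N) (z : ℕ → V) (l : ℕ → α × Bool) (D : ℕ → Set V) (y : ℕ → V)
    (hz : ∀ i, F.piece (z i) = N) (hE : ∀ i, F.G.E (z i) (l i) (z (i + 1)))
    (hred : ∀ i, l (i + 1) ≠ linv (l i)) (hD : ∀ i, ∃ p, D i = F.comp (z i) p)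
    (hy : ∀ i, y i ∈ D i ∩ D (i + 1)) (hpy : F.piece (y 0) = m) : False := by
  classical
  obtain ⟨r, hr⟩ := F.common N m hm
  have hyB : ∀ i, y i ∈ F.B (z i) := fun i => by
    obtain ⟨p, hp⟩ := hD i
    have h := (hy i).1
    rw [hp] at h
    exact F.comp_subset_B _ _ h
  have hyB' : ∀ i, y i ∈ F.B (z (i + 1)) := fun i => by
    obtain ⟨p, hp⟩ := hD (i + 1)
    have h := (hy i).2
    rw [hp] at h
    exact F.comp_subset_B _ _ h
  choose W hWn hWψ using fun i => F.mem_B_iff.mp (hyB i)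
  have hu : ∀ i, ∃ u, F.G.ReadIn (F.B (z (i + 1))) (y i) u (y (i + 1)) := by
    intro i
    obtain ⟨p, hp⟩ := hD (i + 1)
    have h1 : y i ∈ F.comp (z (i + 1)) p := hp ▸ (hy i).2
    have h2 : y (i + 1) ∈ F.comp (z (i + 1)) p := hp ▸ (hy (i + 1)).1
    rw [← F.comp_eq_of_mem h1] at h2
    exact h2
  choose u hu using hu
  have hW0 : F.W0 + F.W0 ≤ 8 * F.rho ^ 2 + 10 := by
    unfold W0
    nlinarith [Nat.zero_le (F.rho ^ 2)]
  -- the recurrence
  have hrec : ∀ i, W (i + 1) = (ltr (l i))⁻¹ * W i * FreeGroup.mk (u i) := by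
    intro i
    obtain ⟨X', hX'n, hX'ψ⟩ := F.mem_B_iff.mp (hyB' i)
    have hτ : F.τ (z (i + 1)) = F.τ (z i) * F.ψ (ltr (l i)) := F.τ_step (hE i)
    have hXψ : F.ψ ((ltr (l i))⁻¹ * W i) = (F.τ (z (i + 1)))⁻¹ * F.τ (y i) := by
      rw [_root_.map_mul, _root_.map_inv, hWψ, hτ]; group
    have hXn : FreeGroup.norm ((ltr (l i))⁻¹ * W i) ≤ FreeGroup.norm (W i) + 1 := by
      refine (FreeGroup.norm_mul_le _ _).trans ?_
      rw [FreeGroup.norm_inv_eq, norm_ltr]
      omega
    have h1n := hWn i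
    have hXeq : (ltr (l i))⁻¹ * W i = X' :=
      F.girth_eq (hXψ.trans hX'ψ.symm) (by omega)
    have hXlt : FreeGroup.norm ((ltr (l i))⁻¹ * W i) < F.W0 := by rw [hXeq]; exact hX'n
    obtain ⟨h1, h2⟩ := F.lift (hu i) hXψ hXlt
    have h3 := hWn (i + 1)
    exact (F.girth_eq (h1.trans (hWψ (i + 1)).symm) (by omega)).symm
  -- the long words
  set w : ℕ → List (α × Bool) := fun R => (List.range R).map l with hw
  set U : ℕ → List (α × Bool) := fun R => ((List.range R).map u).flatten with hU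
  have hw_succ : ∀ R, w (R + 1) = w R ++ [l R] := by
    intro R; simp [hw, List.range_succ]
  have hU_succ : ∀ R, U (R + 1) = U R ++ u R := by
    intro R; simp [hU, List.range_succ]
  have htel : ∀ R, FreeGroup.mk (U R) = (W 0)⁻¹ * FreeGroup.mk (w R) * W R := by
    intro R
    induction R with
    | zero =>
      have e1 : U 0 = [] := by simp [hU]
      have e2 : w 0 = [] := by simp [hw]
      rw [e1, e2]
      show (1 : FreeGroup α) = (W 0)⁻¹ * 1 * W 0
      group
    | succ R ih =>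
      rw [hU_succ, hw_succ, mk_append_eq, mk_append_eq, ih, hrec R]
      have e : FreeGroup.mk [l R] = ltr (l R) := rfl
      rw [e]
      group
  have hw_read : ∀ R, F.G.Read (z 0) (w R) (z R) := by
    intro R
    induction R with
    | zero =>
      have e2 : w 0 = [] := by simp [hw]
      rw [e2]
      exact LG.ReadIn.nil (Set.mem_univ _)
    | succ R ih =>
      rw [hw_succ]
      exact LG.ReadIn.append ih (LG.ReadIn.cons (Set.mem_univ _) (hE R) (LG.ReadIn.nil (Set.mem_univ _)))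
  have hU_read : ∀ R, F.G.Read (y 0) (U R) (y R) := by
    intro R
    induction R with
    | zero =>
      have e2 : U 0 = [] := by simp [hU]
      rw [e2]
      exact LG.ReadIn.nil (Set.mem_univ _)
    | succ R ih =>
      rw [hU_succ]
      exact LG.ReadIn.append ih (hu R).read
  have hw_red : ∀ R, IsReduced (w R) := by
    intro R
    show List.IsChain _ _
    rw [List.isChain_iff_getElem]
    intro i hi
    have hlen : (w R).length = R := by simp [hw]
    have e1 : (w R)[i] = l i := by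
      simp only [hw, List.getElem_map, List.getElem_range]
    have e2 : (w R)[i + 1] = l (i + 1) := by
      simp only [hw, List.getElem_map, List.getElem_range]
    rw [e1, e2]
    intro h1
    by_contra h2
    apply hred i
    have h3 : (l (i + 1)).2 = !(l i).2 := by
      cases h4 : (l i).2 <;> cases h5 : (l (i + 1)).2 <;> simp_all
    exact Prod.ext h1.symm h3
  -- pick the length
  set R : ℕ := r + (F.W0 + F.W0) with hR
  set c : List (α × Bool) :=
    (((w R).drop (FreeGroup.norm (W 0)⁻¹)).take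
      ((w R).length - FreeGroup.norm (W 0)⁻¹ - FreeGroup.norm (W R))) with hc
  have hc1 : c <:+: toWord ((W 0)⁻¹ * FreeGroup.mk (w R) * W R) := middle_factor (hw_red R) _ _
  have hc2 : c <:+: w R := by
    have h1 : c <+: (w R).drop (FreeGroup.norm (W 0)⁻¹) := List.take_prefix _ _
    exact h1.isInfix.trans (List.drop_suffix _ _).isInfix
  have hclen : r ≤ c.length := by
    have h1 := hWn 0
    have h2 := hWn R
    have h3 : FreeGroup.norm (W 0)⁻¹ = FreeGroup.norm (W 0) := FreeGroup.norm_inv_eq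
    have h4 : (w R).length = R := by simp [hw]
    simp only [hc, List.length_take, List.length_drop, h4, h3]
    omega
  set c' := c.take r with hc'
  have hc'pre : c' <:+: c := (List.take_prefix _ _).isInfix
  have hc'len : c'.length = r := by
    simp [hc', hclen]
  have hc'red : IsReduced c' := isReduced_of_factor (hw_red R) (hc'pre.trans hc2)
  obtain ⟨a, b, c1, hab, hbc⟩ := (hw_read R).factor (hc'pre.trans hc2)
  have hU_red : F.G.Read (y 0) (toWord ((W 0)⁻¹ * FreeGroup.mk (w R) * W R)) (y R) := by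
    rw [← htel R, FreeGroup.toWord_mk]
    exact (hU_read R).reduce
  obtain ⟨a', b', c2, hab', hbc'⟩ := hU_red.factor (hc'pre.trans hc1)
  have hpb : F.piece b = N := by rw [F.piece_read hab, hz 0]
  have hpb' : F.piece b' = m := by rw [F.piece_read hab', hpy]
  exact hr c' hc'red hc'len b c1 b' c2 hpb hpb' hbc hbc'

end Frame

end Vale.Agent.Lib.P090K
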