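import Vale.Agent.Lib.P090K.Pieces
import Vale.Agent.Lib.P090K.Windows

/-!
From the pieces to one frame at each scale. Blueprint sections 2, 3.
-/

namespace Vale.Agent.Lib.P090K

open FreeGroup

/-- A frame at scale `ρ` with the finiteness properties used in the final argument. -/
structure BFrame (ρ : ℕ) where
  V : Type
  Q : Type
  grp : Group Q
  F : @Frame Alph V Q _ grp
  rho_eq : F.rho = ρ
  hubs_fin : (Set.range F.hub).Finite
  piece_fin : ∀ N, {z | F.piece z = N}.Finite
  piece_ne : ∀ N, 1 ≤ N → {z | F.piece z = N}.Nonempty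
  deg3 : ∀ z, 1 ≤ F.piece z → 3 ≤ (F.G.letters z).card

section Construction

variable {Q : Type} [Group Q] (ψ : FreeGroup Alph →* Q) (A : Finset Q) (C : ℕ → Piece)

/-- The vertices of the frame: the hubs and the copies of the pieces. -/
abbrev BV (Q : Type) (A : Finset Q) (C : ℕ → Piece) : Type :=
  {a // a ∈ A} ⊕ (Σ n, (C n).V × Q)

/-- The edges of the frame. -/
inductive BE : BV Q A C → Alph × Bool → BV Q A C → Prop
  | mk {n : ℕ} {c c' : (C n).V} {g : Q} {l : Alph × Bool} : (C n).G.E c l c' →
      BE (Sum.inr ⟨n, c, g⟩) l (Sum.inr ⟨n, c', g * ψ (ltr l)⟩)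

/-- The labelled graph of the frame. -/
def BG : LG Alph (BV Q A C) where
  E := BE ψ A C
  symm := by
    intro x l y h
    cases h with
    | @mk n c c' g l hc =>
      have h1 := BE.mk (ψ := ψ) (A := A) (g := g * ψ (ltr l)) ((C n).G.symm hc)
      have h2 : g * ψ (ltr l) * ψ (ltr (linv l)) = g := by
        rw [ltr_linv, _root_.map_inv, mul_assoc, mul_inv_cancel, mul_one]
      rwa [h2] at h1
  det := by
    intro x l y y' h h'
    cases h with
    | @mk n c c' g l hc =>
      cases h' with
      | mk hc' =>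
        rw [(C n).G.det hc hc']

variable {ψ A C}

private theorem read_proj {n : ℕ} {w : List (Alph × Bool)} :
    ∀ {c : (C n).V} {g : Q} {y : BV Q A C},
      (BG ψ A C).ReadIn Set.univ (Sum.inr ⟨n, c, g⟩) w y → ∃ c', (C n).G.Read c w c' := by
  induction w with
  | nil =>
    intro c g y _
    exact ⟨c, LG.ReadIn.nil (Set.mem_univ _)⟩
  | cons l w ih =>
    intro c g y h
    cases h with
    | cons hx hE hrest =>
      cases hE with
      | mk hc =>
        obtain ⟨c'', hc''⟩ := ih hrest
        exact ⟨c'', LG.ReadIn.cons (Set.mem_univ _) hc hc''⟩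

private theorem hub_no_read {a : {a // a ∈ A}} {l : Alph × Bool} {w : List (Alph × Bool)}
    {y : BV Q A C} : ¬ (BG ψ A C).ReadIn Set.univ (Sum.inl a) (l :: w) y := by
  intro h
  cases h with
  | cons hx hE hrest =>
    cases hE

end Construction

set_option linter.constructorNameAsVariable false in
/-- Frames exist at all scales. -/
theorem exists_bframe (ρ : ℕ) (hρ : 100 ≤ ρ) : Nonempty (BFrame ρ) := by
  classical
  obtain ⟨Q, iG, iF, ψ, hsurj, hgirth⟩ := exists_girth (α := Alph) (8 * ρ ^ 2 + 10)
  obtain ⟨A, hubOf, hA, hlt, hnear, hsep⟩ := exists_hubs ψ hsurj ρ (by omega)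
  obtain ⟨C, hC⟩ := exists_pieces
  let hubFn : BV Q A C → BV Q A C := fun x =>
    match x with
    | Sum.inl a => Sum.inl a
    | Sum.inr ⟨_, _, g⟩ => Sum.inl ⟨hubOf g, hA g⟩
  let sFn : BV Q A C → ℕ := fun x =>
    match x with
    | Sum.inl _ => 0
    | Sum.inr ⟨_, _, g⟩ => wd ψ g (hubOf g) + 1
  let τFn : BV Q A C → Q := fun x =>
    match x with
    | Sum.inl a => a.1
    | Sum.inr ⟨_, _, g⟩ => g
  let pieceFn : BV Q A C → ℕ := fun x =>
    match x with
    | Sum.inl _ => 0
    | Sum.inr ⟨n, _, _⟩ => n + 1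
  have hsstep : ∀ g : Q, ∀ l, wd ψ (g * ψ (ltr l)) (hubOf (g * ψ (ltr l))) ≤ wd ψ g (hubOf g) + 1 := by
    intro g l
    calc wd ψ (g * ψ (ltr l)) (hubOf (g * ψ (ltr l)))
        ≤ wd ψ (g * ψ (ltr l)) (hubOf g) := hnear _ _ (hA g)
      _ ≤ wd ψ (g * ψ (ltr l)) g + wd ψ g (hubOf g) := wd_triangle ψ hsurj _ _ _
      _ ≤ wd ψ g (hubOf g) + 1 := by
          have h1 : wd ψ (g * ψ (ltr l)) g ≤ 1 := by
            rw [wd_comm ψ hsurj]
            exact wd_step ψ g l
          omega
  let F : Frame Alph (BV Q A C) Q :=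
    { G := BG ψ A C
      ψ := ψ
      surj := hsurj
      τ := τFn
      τ_step := by
        intro x l y h
        cases h
        rfl
      rho := ρ
      rho_ge := hρ
      girth := hgirth
      hub := hubFn
      s := sFn
      hub_hub := by
        intro x
        rcases x with a | ⟨n, c, g⟩ <;> rfl
      s_hub := by
        intro x
        rcases x with a | ⟨n, c, g⟩ <;> rfl
      s_le := by
        intro x
        rcases x with a | ⟨n, c, g⟩
        · exact Nat.zero_le _
        · exact hlt g
      s_zero := by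
        intro x hx
        rcases x with a | ⟨n, c, g⟩
        · rfl
        · exact absurd hx (Nat.succ_ne_zero _)
      s_dist := by
        intro x
        rcases x with a | ⟨n, c, g⟩
        · show wd ψ a.1 a.1 ≤ 0
          rw [wd_self]
        · show wd ψ g (hubOf g) ≤ wd ψ g (hubOf g) + 1
          omega
      s_step := by
        intro x l y h
        cases h with
        | @mk n c c' g l hc =>
          show wd ψ (g * ψ (ltr l)) (hubOf (g * ψ (ltr l))) + 1 ≤ wd ψ g (hubOf g) + 1 + 1
          have := hsstep g l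
          omega
      hub_step := by
        intro x l y h hx hy
        cases h with
        | @mk n c c' g l hc =>
          have hx' : 8 * (wd ψ g (hubOf g) + 1) < ρ := hx
          have hy' : 8 * (wd ψ (g * ψ (ltr l)) (hubOf (g * ψ (ltr l))) + 1) < ρ := hy
          have hab : hubOf g = hubOf (g * ψ (ltr l)) := by
            by_contra hne
            have h1 := hsep _ (hA g) _ (hA (g * ψ (ltr l))) hne
            have h2 : wd ψ (hubOf g) (hubOf (g * ψ (ltr l)))
                ≤ wd ψ (hubOf g) g + wd ψ g (hubOf (g * ψ (ltr l))) := wd_triangle ψ hsurj _ _ _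
            have h3 : wd ψ g (hubOf (g * ψ (ltr l)))
                ≤ wd ψ g (g * ψ (ltr l)) + wd ψ (g * ψ (ltr l)) (hubOf (g * ψ (ltr l))) :=
              wd_triangle ψ hsurj _ _ _
            have h4 := wd_step ψ g l
            have h5 : wd ψ (hubOf g) g = wd ψ g (hubOf g) := wd_comm ψ hsurj _ _
            omega
          show (Sum.inl ⟨hubOf g, hA g⟩ : BV Q A C) = Sum.inl ⟨hubOf (g * ψ (ltr l)), hA _⟩
          congr 2
      piece := pieceFn
      piece_step := by
        intro x l y h
        cases h
        rfl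
      common := by
        intro N m hm
        obtain ⟨n, rfl⟩ : ∃ n, N = n + 1 := ⟨N - 1, by omega⟩
        rcases m with _ | m
        · refine ⟨1, ?_⟩
          intro w _ hlen x x' y y' _ hy _ hread
          obtain ⟨l, hw⟩ := List.length_eq_one_iff.mp hlen
          subst hw
          rcases y with a | ⟨k, c, g⟩
          · exact hub_no_read hread
          · exact absurd hy (Nat.succ_ne_zero _)
        · obtain ⟨r, hr⟩ := hC n m (by omega)
          refine ⟨r, ?_⟩
          intro w hw hlen x x' y y' hx hy hread hread'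
          apply hr
          rcases x with a | ⟨k, c, g⟩
          · exact absurd hx (Nat.succ_ne_zero _).symm
          rcases y with a | ⟨k', c₂, g₂⟩
          · exact absurd hy (Nat.succ_ne_zero _).symm
          have hk : k = n := by
            have : k + 1 = n + 1 := hx
            omega
          have hk' : k' = m := by
            have : k' + 1 = m + 1 := hy
            omega
          subst hk
          subst hk'
          obtain ⟨c3, hc3⟩ := read_proj hread
          obtain ⟨c4, hc4⟩ := read_proj hread'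
          exact ⟨w, hw, hlen, ⟨c, c3, hc3⟩, ⟨c₂, c4, hc4⟩⟩ }
  refine ⟨⟨BV Q A C, Q, iG, F, rfl, ?_, ?_, ?_, ?_⟩⟩
  · refine (Set.finite_range (Sum.inl : {a // a ∈ A} → BV Q A C)).subset ?_
    rintro _ ⟨x, rfl⟩
    rcases x with a | ⟨n, c, g⟩
    · exact ⟨a, rfl⟩
    · exact ⟨⟨hubOf g, hA g⟩, rfl⟩
  · intro N
    rcases N with _ | n
    · refine (Set.finite_range (Sum.inl : {a // a ∈ A} → BV Q A C)).subset ?_
      intro x hx
      rcases x with a | ⟨n, c, g⟩
      · exact ⟨a, rfl⟩
      · exact absurd hx (Nat.succ_ne_zero _)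
    · haveI := (C n).fin
      refine (Set.finite_range
        (fun p : (C n).V × Q => (Sum.inr ⟨n, p⟩ : BV Q A C))).subset ?_
      intro x hx
      rcases x with a | ⟨k, c, g⟩
      · exact absurd hx (Nat.succ_ne_zero _).symm
      · have hk : k = n := by
          have : k + 1 = n + 1 := hx
          omega
        subst hk
        exact ⟨(c, g), rfl⟩
  · intro N hN
    obtain ⟨n, rfl⟩ : ∃ n, N = n + 1 := ⟨N - 1, by omega⟩
    obtain ⟨c⟩ := (C n).ne
    exact ⟨Sum.inr ⟨n, c, 1⟩, rfl⟩
  · intro z hz
    rcases z with a | ⟨n, c, g⟩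
    · exact absurd hz (by simp [F, pieceFn])
    · refine le_trans ((C n).deg3 c) (Finset.card_le_card ?_)
      intro l hl
      simp only [LG.letters, Finset.mem_filter, Finset.mem_univ, true_and] at hl ⊢
      obtain ⟨c', hc'⟩ := hl
      exact ⟨_, BE.mk hc'⟩

end Vale.Agent.Lib.P090K
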