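import Mathlib

/-!
The forest Cheeger inequality. Blueprint section 8.
-/

namespace Vale.Agent.Lib.P090K

namespace CheegerAux

variable {X Lt : Type}

open Classical in
/-- The variation along the letter `l` at `x` relative to the set `W`. -/
noncomputable def tW (R : X → Lt → X → Prop) (f : X → ℝ) (W : Finset X) (x : X) (l : Lt) : ℝ :=
  if h : ∃ y ∈ W, R x l y then |f x - f h.choose| else f x

theorem tW_of_mem {R : X → Lt → X → Prop} {f : X → ℝ} {W : Finset X} {x y : X} {l : Lt}
    (hfun : ∀ y ∈ W, ∀ y' ∈ W, R x l y → R x l y' → y = y') (hy : y ∈ W) (hR : R x l y) :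
    tW R f W x l = |f x - f y| := by
  have h : ∃ y ∈ W, R x l y := ⟨y, hy, hR⟩
  unfold tW
  rw [dif_pos h]
  have hc := h.choose_spec
  rw [hfun _ hc.1 _ hy hc.2 hR]

theorem tW_of_not {R : X → Lt → X → Prop} {f : X → ℝ} {W : Finset X} {x : X} {l : Lt}
    (h : ¬ ∃ y ∈ W, R x l y) : tW R f W x l = f x := by
  unfold tW
  rw [dif_neg h]

/-- If each vertex of `W` has two letters leading into `W` there is an infinite non-backtracking
walk. -/
theorem exists_leaf (W : Finset X) (hW : W.Nonempty)
    (inv : Lt → Lt) (R : X → Lt → X → Prop)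
    (hwalk : ¬ ∃ (x : ℕ → X) (l : ℕ → Lt),
      ∀ i, x i ∈ W ∧ R (x i) (l i) (x (i + 1)) ∧ l (i + 1) ≠ inv (l i)) :
    ∃ x ∈ W, ∀ l l' y y', y ∈ W → y' ∈ W → R x l y → R x l' y' → l = l' := by
  by_contra hcon
  push Not at hcon
  obtain ⟨x0, hx0⟩ := hW
  obtain ⟨a0, -, -, -, -, -, -, -, -⟩ := hcon x0 hx0
  have hstep : ∀ s : {x // x ∈ W} × Lt, ∃ p : Lt × {x // x ∈ W},
      R s.1.1 p.1 p.2.1 ∧ p.1 ≠ s.2 := by
    rintro ⟨⟨x, hx⟩, a⟩
    obtain ⟨l, l', y, y', hy, hy', h1, h2, hne⟩ := hcon x hx
    by_cases hla : l = a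
    · refine ⟨(l', ⟨y', hy'⟩), h2, ?_⟩
      simp only
      intro h
      exact hne (hla.trans h.symm)
    · exact ⟨(l, ⟨y, hy⟩), h1, hla⟩
  choose c hc using hstep
  let next : {x // x ∈ W} × Lt → {x // x ∈ W} × Lt := fun s => ((c s).2, inv (c s).1)
  let st : ℕ → {x // x ∈ W} × Lt := fun i => next^[i] (⟨x0, hx0⟩, a0)
  have hst : ∀ i, st (i + 1) = next (st i) := fun i => Function.iterate_succ_apply' _ _ _
  refine hwalk ⟨fun i => (st i).1.1, fun i => (c (st i)).1, fun i => ⟨(st i).1.2, ?_, ?_⟩⟩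
  · have := (hc (st i)).1
    show R (st i).1.1 (c (st i)).1 (st (i + 1)).1.1
    rw [hst]
    exact this
  · have := (hc (st (i + 1))).2
    show (c (st (i + 1))).1 ≠ inv (c (st i)).1
    rw [hst] at this ⊢
    exact this

end CheegerAux

open CheegerAux in
/-- Let `S` be a finite set of states with a partial involutive letter action `R` and no infinite
non-backtracking walk. If each state has at least `3` letters then the total mass of `f ≥ 0` is
controlled by the variation along letters, where a letter without a partner in `S` counts `f x`. -/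
theorem forest_cheeger {X Lt : Type} [DecidableEq X] [DecidableEq Lt] (S : Finset X)
    (inv : Lt → Lt) (hinv : ∀ l, inv l ≠ l) (hinv2 : ∀ l, inv (inv l) = l)
    (R : X → Lt → X → Prop) (L : X → Finset Lt)
    (hfun : ∀ x ∈ S, ∀ l, ∀ y ∈ S, ∀ y' ∈ S, R x l y → R x l y' → y = y')
    (hsym : ∀ x l y, R x l y → R y (inv l) x)
    (hL : ∀ x l y, R x l y → l ∈ L x)
    (h3 : ∀ x ∈ S, 3 ≤ (L x).card)
    (hwalk : ¬ ∃ (x : ℕ → X) (l : ℕ → Lt),
      ∀ i, x i ∈ S ∧ R (x i) (l i) (x (i + 1)) ∧ l (i + 1) ≠ inv (l i))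
    (f : X → ℝ) (hf : ∀ x, 0 ≤ f x) (t : X → Lt → ℝ)
    (ht1 : ∀ x ∈ S, ∀ l ∈ L x, ∀ y ∈ S, R x l y → |f x - f y| ≤ t x l)
    (ht2 : ∀ x ∈ S, ∀ l ∈ L x, (¬ ∃ y ∈ S, R x l y) → f x ≤ t x l) :
    ∑ x ∈ S, f x ≤ ∑ x ∈ S, ∑ l ∈ L x, t x l := by
  have key : ∀ W : Finset X, W ⊆ S →
      ∑ x ∈ W, f x ≤ ∑ x ∈ W, ∑ l ∈ L x, tW R f W x l := by
    intro W
    induction W using Finset.strongInduction with
    | H W ih =>
      intro hWS
      rcases W.eq_empty_or_nonempty with rfl | hne
      · simp
      have hwalkW : ¬ ∃ (x : ℕ → X) (l : ℕ → Lt),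
          ∀ i, x i ∈ W ∧ R (x i) (l i) (x (i + 1)) ∧ l (i + 1) ≠ inv (l i) := by
        rintro ⟨x, l, h⟩
        exact hwalk ⟨x, l, fun i => ⟨hWS (h i).1, (h i).2⟩⟩
      obtain ⟨x, hxW, hleaf⟩ := exists_leaf W hne inv R hwalkW
      have hxS := hWS hxW
      have hIH := ih (W.erase x) (Finset.erase_ssubset hxW) ((Finset.erase_subset _ _).trans hWS)
      have hsumf : ∑ y ∈ W, f y = f x + ∑ y ∈ W.erase x, f y := (Finset.add_sum_erase W f hxW).symm
      have hsumt : ∑ y ∈ W, ∑ l ∈ L y, tW R f W y l =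
          ∑ l ∈ L x, tW R f W x l + ∑ y ∈ W.erase x, ∑ l ∈ L y, tW R f W y l :=
        (Finset.add_sum_erase W (fun y => ∑ l ∈ L y, tW R f W y l) hxW).symm
      rw [hsumf, hsumt]
      have hfunW : ∀ y ∈ W, ∀ l, ∀ u ∈ W, ∀ u' ∈ W, R y l u → R y l u' → u = u' :=
        fun y hy l u hu u' hu' => hfun y (hWS hy) l u (hWS hu) u' (hWS hu')
      have hfunE : ∀ y ∈ W, ∀ l, ∀ u ∈ W.erase x, ∀ u' ∈ W.erase x, R y l u → R y l u' → u = u' :=
        fun y hy l u hu u' hu' =>
          hfunW y hy l u (Finset.mem_of_mem_erase hu) u' (Finset.mem_of_mem_erase hu')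
      -- the value of `tW` does not change at letters that do not lead to `x`
      have hsame : ∀ y ∈ W.erase x, ∀ l, ¬ R y l x → tW R f (W.erase x) y l = tW R f W y l := by
        intro y hy l hnot
        have hyW := Finset.mem_of_mem_erase hy
        by_cases hex : ∃ u ∈ W, R y l u
        · obtain ⟨u, hu, hRu⟩ := hex
          have hux : u ≠ x := by
            rintro rfl
            exact hnot hRu
          rw [tW_of_mem (fun a ha b hb => hfunE y hyW l a ha b hb) (Finset.mem_erase.2 ⟨hux, hu⟩) hRu,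
            tW_of_mem (fun a ha b hb => hfunW y hyW l a ha b hb) hu hRu]
        · have hex' : ¬ ∃ u ∈ W.erase x, R y l u := by
            rintro ⟨u, hu, hRu⟩
            exact hex ⟨u, Finset.mem_of_mem_erase hu, hRu⟩
          rw [tW_of_not hex, tW_of_not hex']
      by_cases hnb : ∃ l0 y0, y0 ∈ W ∧ R x l0 y0
      · obtain ⟨l0, y0, hy0, hR0⟩ := hnb
        have hy0x : y0 ≠ x := by
          rintro rfl
          have h := hleaf l0 (inv l0) y0 y0 hy0 hy0 hR0 (hsym _ _ _ hR0)
          exact hinv l0 h.symm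
        have hy0E : y0 ∈ W.erase x := Finset.mem_erase.2 ⟨hy0x, hy0⟩
        have hl0 : l0 ∈ L x := hL _ _ _ hR0
        have hil0 : inv l0 ∈ L y0 := hL _ _ _ (hsym _ _ _ hR0)
        -- letters leading to `x`
        have hto : ∀ y ∈ W.erase x, ∀ l, R y l x → y = y0 ∧ l = inv l0 := by
          intro y hy l hRyx
          have hyW := Finset.mem_of_mem_erase hy
          have h1 := hsym _ _ _ hRyx
          have h2 : inv l = l0 := hleaf _ _ _ _ hyW hy0 h1 hR0
          have h3' : l = inv l0 := by rw [← h2, hinv2]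
          refine ⟨?_, h3'⟩
          rw [h2] at h1
          exact hfunW x hxW l0 y hyW y0 hy0 h1 hR0
        -- the sum over the rest, outside `y0`
        have hrest : ∀ y ∈ (W.erase x).erase y0, ∑ l ∈ L y, tW R f (W.erase x) y l =
            ∑ l ∈ L y, tW R f W y l := by
          intro y hy
          refine Finset.sum_congr rfl fun l _ => ?_
          have hyne := Finset.ne_of_mem_erase hy
          have hyE := Finset.mem_of_mem_erase hy
          refine hsame y hyE l fun hRyx => hyne (hto y hyE l hRyx).1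
        -- the sum at `y0`
        have hat : ∀ l ∈ (L y0).erase (inv l0), tW R f (W.erase x) y0 l = tW R f W y0 l := by
          intro l hl
          have hne := Finset.ne_of_mem_erase hl
          refine hsame y0 hy0E l fun hR => hne (hto y0 hy0E l hR).2
        have hv1 : tW R f W y0 (inv l0) = |f y0 - f x| :=
          tW_of_mem (fun a ha b hb => hfunW y0 hy0 _ a ha b hb) hxW (hsym _ _ _ hR0)
        have hv2 : tW R f (W.erase x) y0 (inv l0) = f y0 := by
          refine tW_of_not ?_
          rintro ⟨u, hu, hRu⟩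
          have huW := Finset.mem_of_mem_erase hu
          have := hfunW y0 hy0 _ u huW x hxW hRu (hsym _ _ _ hR0)
          exact Finset.ne_of_mem_erase hu this
        have hs1 : ∑ l ∈ L y0, tW R f (W.erase x) y0 l =
            f y0 + ∑ l ∈ (L y0).erase (inv l0), tW R f W y0 l := by
          rw [← Finset.add_sum_erase _ _ hil0, hv2, Finset.sum_congr rfl hat]
        have hs2 : ∑ l ∈ L y0, tW R f W y0 l =
            |f y0 - f x| + ∑ l ∈ (L y0).erase (inv l0), tW R f W y0 l := by
          rw [← Finset.add_sum_erase _ _ hil0, hv1]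
        have hs3 : ∑ y ∈ W.erase x, ∑ l ∈ L y, tW R f (W.erase x) y l =
            ∑ y ∈ W.erase x, ∑ l ∈ L y, tW R f W y l + f y0 - |f y0 - f x| := by
          rw [← Finset.add_sum_erase _ _ hy0E, ← Finset.add_sum_erase (W.erase x)
            (fun y => ∑ l ∈ L y, tW R f W y l) hy0E, hs1, hs2, Finset.sum_congr rfl hrest]
          ring
        -- the sum at `x`
        have hx1 : ∑ l ∈ L x, tW R f W x l =
            |f x - f y0| + ∑ l ∈ (L x).erase l0, f x := by
          rw [← Finset.add_sum_erase _ _ hl0,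
            tW_of_mem (fun a ha b hb => hfunW x hxW _ a ha b hb) hy0 hR0]
          congr 1
          refine Finset.sum_congr rfl fun l hl => tW_of_not ?_
          rintro ⟨u, hu, hRu⟩
          exact Finset.ne_of_mem_erase hl (hleaf _ _ _ _ hu hy0 hRu hR0)
        have hcard : 2 ≤ ((L x).erase l0).card := by
          rw [Finset.card_erase_of_mem hl0]
          have := h3 x hxS
          omega
        have hx2 : 2 * f x ≤ ∑ l ∈ (L x).erase l0, f x := by
          rw [Finset.sum_const, nsmul_eq_mul]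
          have : (2 : ℝ) ≤ (((L x).erase l0).card : ℝ) := by exact_mod_cast hcard
          exact mul_le_mul_of_nonneg_right this (hf x)
        rw [hx1]
        rw [hs3] at hIH
        have habs : |f x - f y0| = |f y0 - f x| := abs_sub_comm _ _
        have h4 : f y0 - f x ≤ |f y0 - f x| := le_abs_self _
        have h5 : 0 ≤ |f y0 - f x| := abs_nonneg _
        rw [habs]
        have := hf x
        linarith
      · have hno : ∀ l y, y ∈ W → ¬ R x l y := fun l y hy hR => hnb ⟨l, y, hy, hR⟩
        have hx1 : ∀ l, tW R f W x l = f x := fun l =>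
          tW_of_not (by rintro ⟨u, hu, hRu⟩; exact hno l u hu hRu)
        have hs3 : ∑ y ∈ W.erase x, ∑ l ∈ L y, tW R f (W.erase x) y l =
            ∑ y ∈ W.erase x, ∑ l ∈ L y, tW R f W y l := by
          refine Finset.sum_congr rfl fun y hy => Finset.sum_congr rfl fun l _ => ?_
          refine hsame y hy l fun hR => ?_
          exact hno _ _ (Finset.mem_of_mem_erase hy) (hsym _ _ _ hR)
        rw [hs3] at hIH
        have hx2 : f x ≤ ∑ l ∈ L x, tW R f W x l := by
          simp only [hx1]
          rw [Finset.sum_const, nsmul_eq_mul]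
          have hc : (1 : ℝ) ≤ ((L x).card : ℝ) := by
            have := h3 x hxS
            have h1 : 1 ≤ (L x).card := by omega
            exact_mod_cast h1
          have := mul_le_mul_of_nonneg_right hc (hf x)
          linarith
        linarith
  refine (key S le_rfl).trans ?_
  refine Finset.sum_le_sum fun x hx => Finset.sum_le_sum fun l hl => ?_
  by_cases h : ∃ y ∈ S, R x l y
  · obtain ⟨y, hy, hR⟩ := h
    rw [tW_of_mem (fun a ha b hb => hfun x hx l a ha b hb) hy hR]
    exact ht1 x hx l hl y hy hR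
  · rw [tW_of_not h]
    exact ht2 x hx l hl h

end Vale.Agent.Lib.P090K
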