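import Mathlib

/-!
Shared definitions for the negative answer to Kalton's question: labelled graphs, word metric on a
finite quotient of a free group, frames (one scale `rho`), windows, weights.
Paper proof: notes/P090_blueprint.md.
-/

namespace Vale.Agent.Lib.P090K

open FreeGroup

/-- The element of the free group given by a letter. -/
def ltr {α : Type} (l : α × Bool) : FreeGroup α := FreeGroup.mk [l]

/-- The inverse letter. -/
def linv {α : Type} (l : α × Bool) : α × Bool := (l.1, !l.2)

/-- An `α`-labelled graph: `E x l y` is an edge from `x` to `y` reading the letter `l`. It is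
symmetric (with the inverse letter) and deterministic. -/
structure LG (α V : Type) where
  E : V → α × Bool → V → Prop
  symm : ∀ {x l y}, E x l y → E y (linv l) x
  det : ∀ {x l y y'}, E x l y → E x l y' → y = y'

/-- `ReadIn G D x w y`: a walk from `x` to `y` reading `w` and visiting only vertices of `D`. -/
inductive LG.ReadIn {α V : Type} (G : LG α V) (D : Set V) : V → List (α × Bool) → V → Prop
  | nil {x : V} : x ∈ D → LG.ReadIn G D x [] x
  | cons {x y z : V} {l : α × Bool} {w : List (α × Bool)} :
      x ∈ D → G.E x l y → LG.ReadIn G D y w z → LG.ReadIn G D x (l :: w) z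

/-- A walk reading `w` from `x` to `y`. -/
def LG.Read {α V : Type} (G : LG α V) (x : V) (w : List (α × Bool)) (y : V) : Prop :=
  G.ReadIn Set.univ x w y

open Classical in
/-- The letters available at a vertex. -/
noncomputable def LG.letters {α V : Type} [Fintype α] (G : LG α V) (x : V) : Finset (α × Bool) :=
  Finset.univ.filter (fun l => ∃ y, G.E x l y)

/-- The word metric of a homomorphism from a free group (meant for surjective ones). -/
noncomputable def wd {α Q : Type} [DecidableEq α] [Group Q] (ψ : FreeGroup α →* Q) (g h : Q) : ℕ :=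
  sInf {n | ∃ w : FreeGroup α, FreeGroup.norm w = n ∧ ψ w = g⁻¹ * h}

/-- `clamp t = max 0 (min 1 t)`. -/
noncomputable def clamp (t : ℝ) : ℝ := max 0 (min 1 t)

/-- One scale `rho` of the construction: a labelled graph on vertices `V` with a compatible map to
a finite quotient of the free group of large girth, with hubs and pieces.
The hub points carry no edges and have `s = 0` and are their own hub. -/
structure Frame (α V Q : Type) [DecidableEq α] [Group Q] where
  G : LG α V
  ψ : FreeGroup α →* Q
  surj : Function.Surjective ψ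
  τ : V → Q
  τ_step : ∀ {x l y}, G.E x l y → τ y = τ x * ψ (ltr l)
  rho : ℕ
  rho_ge : 100 ≤ rho
  girth : ∀ w : FreeGroup α, w ≠ 1 → FreeGroup.norm w ≤ 8 * rho ^ 2 + 10 → ψ w ≠ 1
  hub : V → V
  s : V → ℕ
  hub_hub : ∀ x, hub (hub x) = hub x
  s_hub : ∀ x, s (hub x) = 0
  s_le : ∀ x, s x ≤ rho
  s_zero : ∀ x, s x = 0 → hub x = x
  s_dist : ∀ x, wd ψ (τ x) (τ (hub x)) ≤ s x
  s_step : ∀ {x l y}, G.E x l y → s y ≤ s x + 1
  hub_step : ∀ {x l y}, G.E x l y → 8 * s x < rho → 8 * s y < rho → hub x = hub y
  piece : V → ℕ
  piece_step : ∀ {x l y}, G.E x l y → piece y = piece x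
  common : ∀ N m, m < N → ∃ r, ∀ w : List (α × Bool), FreeGroup.IsReduced w → w.length = r →
    ∀ x x' y y', piece x = N → piece y = m → G.Read x w x' → ¬ G.Read y w y'

namespace Frame

variable {α V Q : Type} [DecidableEq α] [Group Q] (F : Frame α V Q)

/-- The window radius `W0 = 2 S = 2 rho^2`. -/
def W0 : ℕ := 2 * F.rho ^ 2

/-- The window at `z`: vertices whose image in `Q` is at distance `< W0` from that of `z`. -/
def B (z : V) : Set V := {y | wd F.ψ (F.τ z) (F.τ y) < F.W0}

/-- The connected component of `p` in the window at `z` (empty when `p` is outside the window). -/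
def comp (z p : V) : Set V := {y | ∃ u, F.G.ReadIn (F.B z) p u y}

/-- The window cut-off `om z p = clamp (2 - d(tau z, tau p) / S)`, `S = rho^2`. -/
noncomputable def om (z p : V) : ℝ :=
  clamp (2 - (wd F.ψ (F.τ z) (F.τ p) : ℝ) / (F.rho : ℝ) ^ 2)

/-- The hub cut-off `nu y = clamp (2 - 16 s(y) / rho)`. -/
noncomputable def nu (y : V) : ℝ := clamp (2 - 16 * (F.s y : ℝ) / (F.rho : ℝ))

/-- The signed weight function with signs `ε` on components. -/
noncomputable def gSigned (z : V) (ε : Set V → ℝ) (y : V) : ℝ :=
  F.nu y * (F.om z (F.hub y) * ε (F.comp z (F.hub y))) + (1 - F.nu y) * (F.om z y * ε (F.comp z y))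

/-- The total weight `phi`, i.e. `gSigned` with all signs `1`. -/
noncomputable def phi (z y : V) : ℝ :=
  F.nu y * F.om z (F.hub y) + (1 - F.nu y) * F.om z y

open Classical in
/-- The weight of the state `D` at `z`, evaluated at `y`. -/
noncomputable def Wt (z : V) (D : Set V) (y : V) : ℝ :=
  F.nu y * (F.om z (F.hub y) * (if D = F.comp z (F.hub y) then 1 else 0))
    + (1 - F.nu y) * (F.om z y * (if D = F.comp z y then 1 else 0))

/-- Admissible test function with constant `κ`. -/
def Adm (κ : ℝ) (g : V → ℝ) : Prop :=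
  (∀ y, |g y| ≤ 1) ∧ (∀ x l y, F.G.E x l y → |g x - g y| ≤ κ) ∧
    (∀ x, |g x - g (F.hub x)| ≤ κ * (F.s x : ℝ))

end Frame

end Vale.Agent.Lib.P090K
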