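import Mathlib

/-!
The metric defined through test functions. Blueprint section 4.
-/

namespace Vale.Agent.Lib.P090K

/-- The combinatorial data of the space. -/
structure MData where
  V : ℕ → Type
  A : ∀ ρ, V ρ → V ρ → Prop
  hub : ∀ ρ, V ρ → V ρ
  s : ∀ ρ, V ρ → ℕ
  D : ℕ → ℝ
  D_nonneg : ∀ ρ, 0 ≤ D ρ
  s_zero : ∀ ρ x, s ρ x = 0 → hub ρ x = x

/-- Points of the space: a base point and all the layers. -/
def Vtx (d : MData) : Type := Option (Σ ρ, d.V ρ)

/-- The point of the layer `ρ`. -/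
def Vtx.pt {d : MData} (ρ : ℕ) (x : d.V ρ) : Vtx d := some ⟨ρ, x⟩

/-- The base point. -/
def Vtx.base {d : MData} : Vtx d := none

/-- The test functions. -/
def Phi (d : MData) : Set (Vtx d → ℝ) :=
  {f | f Vtx.base = 0 ∧ ∀ ρ (x : d.V ρ), |f (Vtx.pt ρ x)| ≤ d.D ρ ∧
    (∀ y, d.A ρ x y → |f (Vtx.pt ρ x) - f (Vtx.pt ρ y)| ≤ 1) ∧
    |f (Vtx.pt ρ x) - f (Vtx.pt ρ (d.hub ρ x))| ≤ (d.s ρ x : ℝ)}

open Classical in
/-- The distance: supremum over test functions, but at least `1` between distinct points. -/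
noncomputable def vdist {d : MData} (u v : Vtx d) : ℝ :=
  max (if u = v then 0 else 1) (⨆ f : Phi d, |f.1 u - f.1 v|)

/-- The bound of test functions at a point. -/
noncomputable def vbd {d : MData} : Vtx d → ℝ
  | none => 0
  | some p => d.D p.1

theorem vbd_nonneg {d : MData} (u : Vtx d) : 0 ≤ vbd u := by
  cases u with
  | none => exact le_refl _
  | some p => exact d.D_nonneg _

theorem Phi_abs_le {d : MData} {f : Vtx d → ℝ} (hf : f ∈ Phi d) (u : Vtx d) : |f u| ≤ vbd u := by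
  cases u with
  | none =>
    have h0 : f none = 0 := hf.1
    show |f none| ≤ 0
    rw [h0, abs_zero]
  | some p =>
    obtain ⟨ρ, x⟩ := p
    exact (hf.2 ρ x).1

theorem zero_mem_Phi (d : MData) : (fun _ => 0 : Vtx d → ℝ) ∈ Phi d := by
  refine ⟨rfl, fun ρ x => ⟨?_, fun y _ => ?_, ?_⟩⟩
  · simpa using d.D_nonneg ρ
  · simp
  · simp

instance (d : MData) : Nonempty (Phi d) := ⟨⟨_, zero_mem_Phi d⟩⟩

theorem Phi_bdd {d : MData} (u v : Vtx d) :
    BddAbove (Set.range fun f : Phi d => |f.1 u - f.1 v|) := by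
  refine ⟨vbd u + vbd v, ?_⟩
  rintro _ ⟨f, rfl⟩
  calc |f.1 u - f.1 v| ≤ |f.1 u| + |f.1 v| := abs_sub _ _
    _ ≤ vbd u + vbd v := add_le_add (Phi_abs_le f.2 u) (Phi_abs_le f.2 v)

theorem iSup_nonneg' {d : MData} (u v : Vtx d) : 0 ≤ ⨆ f : Phi d, |f.1 u - f.1 v| := by
  have h := le_ciSup (Phi_bdd u v) (⟨_, zero_mem_Phi d⟩ : Phi d)
  simpa using h

theorem vdist_self' {d : MData} (u : Vtx d) : vdist u u = 0 := by
  unfold vdist
  simp

theorem vdist_comm' {d : MData} (u v : Vtx d) : vdist u v = vdist v u := by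
  classical
  unfold vdist
  have h1 : (if u = v then (0 : ℝ) else 1) = (if v = u then (0 : ℝ) else 1) := by
    by_cases h : u = v
    · simp [h]
    · simp [h, Ne.symm h]
  have h2 : (⨆ f : Phi d, |f.1 u - f.1 v|) = ⨆ f : Phi d, |f.1 v - f.1 u| := by
    congr 1
    funext f
    exact abs_sub_comm _ _
  rw [h1, h2]

theorem vdist_nonneg' {d : MData} (u v : Vtx d) : 0 ≤ vdist u v :=
  le_trans (iSup_nonneg' u v) (le_max_right _ _)

theorem ite_le_vdist {d : MData} (u v : Vtx d) :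
    (open Classical in if u = v then (0 : ℝ) else 1) ≤ vdist u v := le_max_left _ _

theorem abs_le_vdist {d : MData} (f : Phi d) (u v : Vtx d) : |f.1 u - f.1 v| ≤ vdist u v :=
  le_trans (le_ciSup (Phi_bdd u v) f) (le_max_right _ _)

theorem vdist_triangle' {d : MData} (u v w : Vtx d) : vdist u w ≤ vdist u v + vdist v w := by
  have hA := vdist_nonneg' u v
  have hB := vdist_nonneg' v w
  refine max_le ?_ ?_
  · by_cases h : u = w
    · simp only [h, if_true]
      exact add_nonneg (h ▸ hA) hB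
    · simp only [h, if_false]
      by_cases h1 : u = v
      · have h2 : v ≠ w := fun e => h (h1.trans e)
        have := ite_le_vdist v w
        simp only [h2, if_false] at this
        linarith
      · have := ite_le_vdist u v
        simp only [h1, if_false] at this
        linarith
  · refine ciSup_le fun f => ?_
    calc |f.1 u - f.1 w| ≤ |f.1 u - f.1 v| + |f.1 v - f.1 w| := abs_sub_le _ _ _
      _ ≤ vdist u v + vdist v w := add_le_add (abs_le_vdist f u v) (abs_le_vdist f v w)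

noncomputable instance (d : MData) : MetricSpace (Vtx d) where
  dist := vdist
  dist_self := vdist_self'
  dist_comm := vdist_comm'
  dist_triangle := vdist_triangle'
  eq_of_dist_eq_zero := by
    intro u v h
    by_contra hne
    have := ite_le_vdist u v
    simp only [hne, if_false] at this
    have h' : vdist u v = 0 := h
    linarith

variable {d : MData}

theorem dist_eq_vdist (u v : Vtx d) : dist u v = vdist u v := rfl

theorem dist_ge_one {u v : Vtx d} (h : u ≠ v) : 1 ≤ dist u v := by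
  have := ite_le_vdist u v
  simp only [h, if_false] at this
  exact this

theorem abs_sub_le_dist_of_mem {f : Vtx d → ℝ} (hf : f ∈ Phi d) (u v : Vtx d) :
    |f u - f v| ≤ dist u v := abs_le_vdist ⟨f, hf⟩ u v

theorem dist_edge {ρ : ℕ} {x y : d.V ρ} (h : d.A ρ x y) : dist (Vtx.pt ρ x) (Vtx.pt ρ y) ≤ 1 := by
  refine max_le ?_ (ciSup_le fun f => (f.2.2 ρ x).2.1 y h)
  split_ifs <;> norm_num

theorem dist_spoke {ρ : ℕ} (x : d.V ρ) :
    dist (Vtx.pt ρ x) (Vtx.pt ρ (d.hub ρ x)) ≤ (d.s ρ x : ℝ) := by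
  by_cases hs : d.s ρ x = 0
  · rw [d.s_zero ρ x hs, dist_self]
    exact Nat.cast_nonneg _
  · refine max_le ?_ (ciSup_le fun f => (f.2.2 ρ x).2.2)
    have h1 : (1 : ℝ) ≤ (d.s ρ x : ℝ) := by
      exact_mod_cast Nat.one_le_iff_ne_zero.mpr hs
    split_ifs <;> linarith

theorem dist_base_le {ρ : ℕ} (x : d.V ρ) : dist (Vtx.pt ρ x) (Vtx.base : Vtx d) ≤ max 1 (d.D ρ) := by
  refine max_le ?_ (ciSup_le fun f => ?_)
  · refine le_trans ?_ (le_max_left _ _)
    split_ifs <;> norm_num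
  · refine le_trans ?_ (le_max_right _ _)
    rw [f.2.1, sub_zero]
    exact (f.2.2 ρ x).1

theorem pt_ne_base {ρ : ℕ} (x : d.V ρ) : (Vtx.pt ρ x : Vtx d) ≠ Vtx.base := by
  intro h
  cases h

theorem pt_injective (ρ : ℕ) : Function.Injective (Vtx.pt ρ : d.V ρ → Vtx d) := by
  intro x y h
  have h1 : (⟨ρ, x⟩ : Σ ρ, d.V ρ) = ⟨ρ, y⟩ := Option.some.inj h
  exact eq_of_heq (Sigma.mk.inj h1).2

open Classical in
/-- Extension by zero of a function on one layer. -/
noncomputable def extZ (ρ : ℕ) (g : d.V ρ → ℝ) (u : Vtx d) : ℝ :=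
  if h : ∃ x, u = Vtx.pt ρ x then g h.choose else 0

theorem extZ_pt (ρ : ℕ) (g : d.V ρ → ℝ) (x : d.V ρ) : extZ ρ g (Vtx.pt ρ x) = g x := by
  have h : ∃ y, (Vtx.pt ρ x : Vtx d) = Vtx.pt ρ y := ⟨x, rfl⟩
  unfold extZ
  rw [dif_pos h]
  exact congrArg g (pt_injective ρ h.choose_spec).symm

theorem extZ_of_not {ρ : ℕ} (g : d.V ρ → ℝ) {u : Vtx d} (h : ¬ ∃ x, u = Vtx.pt ρ x) :
    extZ ρ g u = 0 := by
  unfold extZ
  rw [dif_neg h]

theorem extZ_base (ρ : ℕ) (g : d.V ρ → ℝ) : extZ ρ g (Vtx.base : Vtx d) = 0 := by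
  apply extZ_of_not
  rintro ⟨x, hx⟩
  exact pt_ne_base x hx.symm

theorem extZ_other {ρ ρ' : ℕ} (g : d.V ρ → ℝ) (hρ : ρ' ≠ ρ) (x : d.V ρ') :
    extZ ρ g (Vtx.pt ρ' x) = 0 := by
  apply extZ_of_not
  rintro ⟨y, hy⟩
  have h1 : (⟨ρ', x⟩ : Σ ρ, d.V ρ) = ⟨ρ, y⟩ := Option.some.inj hy
  exact hρ (Sigma.mk.inj h1).1

/-- Extension of an admissible function is Lipschitz. -/
theorem extZ_lip {ρ : ℕ} {g : d.V ρ → ℝ} {κ : ℝ} (hκ : 0 < κ) (hκD : 1 / κ ≤ d.D ρ)
    (h0 : ∀ y, |g y| ≤ 1) (h1 : ∀ x y, d.A ρ x y → |g x - g y| ≤ κ)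
    (h2 : ∀ x, |g x - g (d.hub ρ x)| ≤ κ * (d.s ρ x : ℝ)) (u v : Vtx d) :
    |extZ ρ g u - extZ ρ g v| ≤ κ * dist u v := by
  have hmem : (fun w => (1 / κ) * extZ ρ g w) ∈ Phi d := by
    have hpos : 0 < 1 / κ := by positivity
    refine ⟨by simp [extZ_base], fun ρ' x => ?_⟩
    by_cases hρ : ρ' = ρ
    · subst hρ
      simp only [extZ_pt]
      refine ⟨?_, fun y hy => ?_, ?_⟩
      · rw [abs_mul, abs_of_pos hpos]
        calc 1 / κ * |g x| ≤ 1 / κ * 1 := mul_le_mul_of_nonneg_left (h0 x) hpos.le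
          _ = 1 / κ := mul_one _
          _ ≤ d.D ρ' := hκD
      · rw [← mul_sub, abs_mul, abs_of_pos hpos]
        calc 1 / κ * |g x - g y| ≤ 1 / κ * κ := mul_le_mul_of_nonneg_left (h1 x y hy) hpos.le
          _ = 1 := by field_simp
      · rw [← mul_sub, abs_mul, abs_of_pos hpos]
        calc 1 / κ * |g x - g (d.hub ρ' x)| ≤ 1 / κ * (κ * (d.s ρ' x : ℝ)) :=
              mul_le_mul_of_nonneg_left (h2 x) hpos.le
          _ = (d.s ρ' x : ℝ) := by field_simp
    · simp only [extZ_other g hρ]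
      refine ⟨?_, fun y _ => ?_, ?_⟩
      · simpa using d.D_nonneg ρ'
      · simp
      · simp
  have this : |(1 / κ) * extZ ρ g u - (1 / κ) * extZ ρ g v| ≤ dist u v :=
    abs_sub_le_dist_of_mem hmem u v
  rw [← mul_sub, abs_mul, abs_of_pos (by positivity : (0 : ℝ) < 1 / κ)] at this
  calc |extZ ρ g u - extZ ρ g v| = κ * (1 / κ * |extZ ρ g u - extZ ρ g v|) := by field_simp
    _ ≤ κ * dist u v := mul_le_mul_of_nonneg_left this hκ.le

end Vale.Agent.Lib.P090K
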