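import Vale.Agent.Lib.P090.Reduction

/-!
Finite-support approximation of a finite rank operator on test functions. Blueprint section 5.
-/

namespace Vale.Agent.Lib.P090K

open Vale.Agent.Lib.P090

variable {M : Type} [MetricSpace M] {o : M}

open Classical in
/-- The indicator of a point (not the base point) in `Lip_0`: `1`-Lipschitz if distinct points are at
distance at least `1`. -/
noncomputable def bumpAt (hsep : ∀ x y : M, x ≠ y → 1 ≤ dist x y) (y : M) : Lip0 M o :=
  mkLip0 (fun x => if x = y ∧ y ≠ o then 1 else 0)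
    (by rw [if_neg]; rintro ⟨rfl, h⟩; exact h rfl) 1 zero_le_one (fun p q => by
    rcases eq_or_ne p q with rfl | hpq
    · simp
    · have h := hsep p q hpq
      rw [one_mul]
      refine le_trans ?_ h
      split_ifs <;> simp)

/-- Uniform tail smallness on a bounded set, for the images of the `δ_x` under a finite-rank operator. -/
lemma model_tail (T : FreeSpace M o →L[ℝ] FreeSpace M o)
    (hT : FiniteDimensional ℝ (LinearMap.range T.toLinearMap)) (Z0 : Set M) (R : ℝ)
    (hR : ∀ x ∈ Z0, ‖(delta x : FreeSpace M o)‖ ≤ R) (η : ℝ) (hη : 0 < η) :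
    ∃ F0 : Finset M, ∀ x ∈ Z0, ∀ f : Lip0 M o, (∀ y ∈ F0, f y = 0) →
      |toDual (T (delta x)) f| ≤ η * ‖f‖ := by
  classical
  set V := LinearMap.range T.toLinearMap with hV
  have : ProperSpace V := FiniteDimensional.proper ℝ V
  have hK0 : IsCompact (Metric.closedBall (0 : V) (‖T‖ * R)) := isCompact_closedBall _ _
  have hK : IsCompact ((Subtype.val : V → FreeSpace M o) '' Metric.closedBall (0 : V) (‖T‖ * R)) :=
    hK0.image continuous_subtype_val
  have hmem : ∀ x ∈ Z0, T (delta x) ∈
      (Subtype.val : V → FreeSpace M o) '' Metric.closedBall (0 : V) (‖T‖ * R) := by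
    intro x hx
    refine ⟨⟨T (delta x), ⟨delta x, rfl⟩⟩, ?_, rfl⟩
    rw [mem_closedBall_zero_iff]
    change ‖T (delta x)‖ ≤ ‖T‖ * R
    exact (T.le_opNorm _).trans (mul_le_mul_of_nonneg_left (hR x hx) (norm_nonneg _))
  obtain ⟨t, -, htfin, hcover⟩ := hK.finite_cover_balls (half_pos hη)
  have hc : ∀ k : FreeSpace M o, ∃ c : M →₀ ℝ,
      ‖toDual k - c.sum (fun y a => a • evalAt (o := o) y)‖ < η / 2 := by
    intro k
    have hk := toDual_mem k
    obtain ⟨w, hw, hd⟩ := Metric.mem_closure_iff.mp hk (η / 2) (half_pos hη)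
    obtain ⟨c, hc⟩ := (Finsupp.mem_span_range_iff_exists_finsupp).mp hw
    refine ⟨c, ?_⟩
    rw [hc, ← dist_eq_norm]
    exact hd
  choose c hcs using hc
  refine ⟨htfin.toFinset.biUnion (fun k => (c k).support), ?_⟩
  intro x hx f hf
  obtain ⟨k, hkt, hk⟩ := Set.mem_iUnion₂.mp (hcover (hmem x hx))
  have hzero : (c k).sum (fun y a => a • evalAt (o := o) y) f = 0 := by
    rw [Finsupp.sum, _root_.sum_apply]
    refine Finset.sum_eq_zero (fun y hy => ?_)
    have hy' : y ∈ htfin.toFinset.biUnion (fun k => (c k).support) :=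
      Finset.mem_biUnion.mpr ⟨k, htfin.mem_toFinset.mpr hkt, hy⟩
    rw [_root_.smul_apply, evalAt_apply, hf y hy', smul_zero]
  have h1 : toDual (T (delta x)) f
      = (toDual (T (delta x)) - (c k).sum (fun y a => a • evalAt (o := o) y)) f := by
    rw [_root_.sub_apply, hzero, sub_zero]
  rw [h1, ← Real.norm_eq_abs]
  refine (ContinuousLinearMap.le_opNorm _ _).trans ?_
  apply mul_le_mul_of_nonneg_right _ (norm_nonneg _)
  have h2 : ‖toDual (T (delta x)) - toDual k‖ < η / 2 := by
    have := Metric.mem_ball.mp hk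
    rw [dist_eq_norm] at this
    exact this
  have h3 := hcs k
  have h4 : toDual (T (delta x)) - (c k).sum (fun y a => a • evalAt (o := o) y)
      = (toDual (T (delta x)) - toDual k) + (toDual k - (c k).sum (fun y a => a • evalAt (o := o) y)) := by
    abel
  rw [h4]
  refine (norm_add_le _ _).trans ?_
  linarith

lemma model_sum_apply {ι : Type*} (S : Finset ι) (c : ι → ℝ) (b : ι → Lip0 M o) (p : M) :
    (∑ y ∈ S, c y • b y) p = ∑ y ∈ S, c y * b y p := by
  classical
  induction S using Finset.induction_on with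
  | empty => rfl
  | insert a s ha ih =>
    rw [Finset.sum_insert ha, Finset.sum_insert ha, Lip0.add_apply, Lip0.smul_apply, ih]

open Classical in
/-- Approximate representation: on bounded test functions, `T δ_x` is a finite combination of
evaluations, uniformly for `x` in a bounded set. -/
theorem model_approx (hsep : ∀ x y : M, x ≠ y → 1 ≤ dist x y)
    (T : FreeSpace M o →L[ℝ] FreeSpace M o)
    (hT : FiniteDimensional ℝ (LinearMap.range T.toLinearMap)) (Z0 : Set M) (R : ℝ)
    (hR : ∀ x ∈ Z0, ‖(delta x : FreeSpace M o)‖ ≤ R) (η : ℝ) (hη : 0 < η) :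
    ∃ F0 : Finset M, ∀ Ω : Finset M, F0 ⊆ Ω → ∀ x ∈ Z0, ∀ f : Lip0 M o, (∀ p, |f p| ≤ 1) → ‖f‖ ≤ 1 →
      |toDual (T (delta x)) f - ∑ y ∈ Ω.erase o, f y * toDual (T (delta x)) (bumpAt hsep y)| ≤ η := by
  classical
  obtain ⟨F0, hF0⟩ := model_tail T hT Z0 R hR η hη
  refine ⟨F0, fun Ω hΩ x hx f hf1 hf2 => ?_⟩
  set S := Ω.erase o with hS
  have hoS : o ∉ S := by simp [hS]
  set G : Lip0 M o := f - ∑ y ∈ S, f y • bumpAt hsep y with hGdef
  have hb : ∀ y p : M, (bumpAt hsep y : Lip0 M o) p = if p = y ∧ y ≠ o then 1 else 0 := by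
    intro y p
    rfl
  have hG : ∀ p, G p = f p - (if p ∈ S then f p else 0) := by
    intro p
    have h1 : G p = f p - (∑ y ∈ S, f y • bumpAt hsep y) p := rfl
    rw [h1, model_sum_apply]
    congr 1
    by_cases hp : p ∈ S
    · rw [if_pos hp, Finset.sum_eq_single p]
      · have hpo : p ≠ o := fun h => hoS (h ▸ hp)
        rw [hb, if_pos ⟨rfl, hpo⟩, mul_one]
      · intro y _ hne
        rw [hb, if_neg (fun h : p = y ∧ y ≠ o => hne h.1.symm), mul_zero]
      · intro h
        exact absurd hp h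
    · rw [if_neg hp]
      refine Finset.sum_eq_zero fun y hy => ?_
      rw [hb, if_neg (fun h : p = y ∧ y ≠ o => hp (h.1 ▸ hy)), mul_zero]
  have hG0 : ∀ y ∈ F0, G y = 0 := by
    intro y hy
    rw [hG]
    by_cases hyo : y = o
    · rw [hyo, if_neg hoS, f.2.1, sub_zero]
    · have : y ∈ S := Finset.mem_erase.mpr ⟨hyo, hΩ hy⟩
      rw [if_pos this, sub_self]
  have hGn : ‖G‖ ≤ 1 := by
    refine Lip0.norm_le G zero_le_one fun p q => ?_
    rw [one_mul, hG, hG]
    rcases eq_or_ne p q with rfl | hpq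
    · simp
    by_cases hp : p ∈ S <;> by_cases hq : q ∈ S
    · simp [hp, hq]
    · simp only [hp, hq, if_true, if_false, sub_self, sub_zero, zero_sub, abs_neg]
      exact (hf1 q).trans (hsep p q hpq)
    · simp only [hp, hq, if_true, if_false, sub_self, sub_zero]
      exact (hf1 p).trans (hsep p q hpq)
    · simp only [hp, hq, if_false, sub_zero]
      calc |f p - f q| ≤ ‖f‖ * dist p q := Lip0.abs_sub_le f p q
        _ ≤ 1 * dist p q := mul_le_mul_of_nonneg_right hf2 dist_nonneg
        _ = dist p q := one_mul _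
  have h := hF0 x hx G hG0
  have hlin : toDual (T (delta x)) G = toDual (T (delta x)) f -
      ∑ y ∈ S, f y * toDual (T (delta x)) (bumpAt hsep y) := by
    rw [hGdef, map_sub, map_sum]
    simp only [map_smul, smul_eq_mul]
  rw [← hlin]
  calc |toDual (T (delta x)) G| ≤ η * ‖G‖ := h
    _ ≤ η * 1 := mul_le_mul_of_nonneg_left hGn hη.le
    _ = η := mul_one _

end Vale.Agent.Lib.P090K
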