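import Vale.Agent.Lib.P090K.MainIneq
import Vale.Agent.Lib.P090K.Metric
import Vale.Agent.Lib.P090K.Model
import Vale.Agent.Lib.P090K.Build

/-!
The final argument. Blueprint sections 4, 5, 9.
-/

namespace Vale.Agent.Lib.P090K

open Vale.Agent.Lib.P090

/-- The frames, one at each scale `k + 100`. -/
noncomputable def frames (k : ℕ) : BFrame (k + 100) :=
  (exists_bframe (k + 100) (by omega)).some

attribute [instance] BFrame.grp

/-- The metric data of the space. -/
noncomputable def theData : MData where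
  V k := (frames k).V
  A k x y := ∃ l, (frames k).F.G.E x l y
  hub k := (frames k).F.hub
  s k := (frames k).F.s
  D k := (((k : ℝ) + 100)) ^ 2
  D_nonneg _ := by positivity
  s_zero k x h := (frames k).F.s_zero x h

/-- The space. -/
abbrev Kal : Type := Vtx theData

section General

variable {M : Type} [MetricSpace M] {o : M}

/-- Bound on an operator on a difference of deltas. -/
lemma op_diff (T : FreeSpace M o →L[ℝ] FreeSpace M o) {L : ℝ} (hT : ‖T‖ ≤ L) (u v : M)
    (G : Lip0 M o) :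
    |toDual (T (delta u)) G - toDual (T (delta v)) G| ≤ L * dist u v * ‖G‖ := by
  have h1 : toDual (T (delta u)) G - toDual (T (delta v)) G
      = toDual (T (delta u - delta v)) G := by
    rw [map_sub, Vale.Agent.Lib.P090.toDual_sub]
    rfl
  rw [h1]
  have h2 : |toDual (T (delta u - delta v)) G| ≤ ‖toDual (T (delta u - delta v))‖ * ‖G‖ := by
    have := ContinuousLinearMap.le_opNorm (toDual (T (delta u - delta v))) G
    rwa [Real.norm_eq_abs] at this
  have h3 : ‖toDual (T (delta u - delta v))‖ ≤ L * dist u v := by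
    rw [toDual_norm]
    refine (T.le_opNorm _).trans ?_
    have h4 := norm_delta_sub (o := o) u v
    have h5 := norm_nonneg (delta u - delta v : FreeSpace M o)
    exact mul_le_mul hT h4 h5 ((norm_nonneg _).trans hT)
  exact h2.trans (mul_le_mul_of_nonneg_right h3 (Lip0.norm_nonneg' G))

/-- An operator close to the identity at a delta. -/
lemma op_near (T : FreeSpace M o →L[ℝ] FreeSpace M o) (a : M)
    (h : ‖T (delta a) - delta a‖ < 1) (G : Lip0 M o) :
    |toDual (T (delta a)) G - G a| ≤ ‖G‖ := by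
  have h2 : toDual (T (delta a)) G - G a = toDual (T (delta a) - delta a) G := by
    rw [Vale.Agent.Lib.P090.toDual_sub]
    rfl
  rw [h2]
  have h3 : |toDual (T (delta a) - delta a) G| ≤ ‖toDual (T (delta a) - delta a)‖ * ‖G‖ := by
    have := ContinuousLinearMap.le_opNorm (toDual (T (delta a) - delta a)) G
    rwa [Real.norm_eq_abs] at this
  rw [toDual_norm] at h3
  refine h3.trans ?_
  have h4 := Lip0.norm_nonneg' G
  nlinarith

end General

/-- The arithmetic at the end of the proof. -/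
lemma final_numeric {L ρ : ℝ} (hL0 : 0 ≤ L) (hρ : 10 ^ 6 * (L + 1) ≤ ρ) :
    240 * ((L * (33 / ρ) + 2 * (1 / ρ)) + (2 * (1 / ρ + L * ρ + 3 / 2)) / ρ ^ 2) < 1 / 2 := by
  have hρ1 : (10 : ℝ) ^ 6 ≤ ρ := by nlinarith
  have hρpos : 0 < ρ := by linarith
  set t : ℝ := 1 / ρ with ht
  have ht0 : 0 < t := by positivity
  have htρ : t * ρ = 1 := by
    rw [ht]
    field_simp
  have ht1 : t ≤ 1 / 10 ^ 6 := by
    rw [ht]
    exact one_div_le_one_div_of_le (by norm_num) hρ1
  have hLt : (L + 1) * t ≤ 1 / 10 ^ 6 := by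
    have h1 : (10 : ℝ) ^ 6 * (L + 1) * t ≤ ρ * t := mul_le_mul_of_nonneg_right hρ ht0.le
    have h2 : ρ * t = 1 := by rw [mul_comm]; exact htρ
    rw [h2] at h1
    have h3 : (10 : ℝ) ^ 6 * ((L + 1) * t) ≤ 1 := by
      calc (10 : ℝ) ^ 6 * ((L + 1) * t) = (10 : ℝ) ^ 6 * (L + 1) * t := by ring
        _ ≤ 1 := h1
    have h4 : (0 : ℝ) < 10 ^ 6 := by norm_num
    rw [le_div_iff₀ h4]
    linarith
  have e1 : L * (33 / ρ) = 33 * (L * t) := by
    rw [ht]
    ring
  have e2 : (2 * (t + L * ρ + 3 / 2)) / ρ ^ 2 = 2 * t ^ 3 + 2 * (L * t) + 3 * t ^ 2 := by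
    rw [ht]
    field_simp
  rw [e1, e2]
  have hLt0 : 0 ≤ L * t := by positivity
  have hLt1 : L * t ≤ 1 / 10 ^ 6 := by nlinarith
  have ht2 : t ^ 2 ≤ t := by nlinarith
  have ht3 : t ^ 3 ≤ t := by
    have : t ^ 3 = t * t ^ 2 := by ring
    rw [this]
    nlinarith [sq_nonneg t]
  nlinarith

/-- The contradiction at one layer of the space. -/
theorem layer_false {d : MData} (k : ℕ) {Q : Type} [Group Q] (F : Frame Alph (d.V k) Q)
    (hA : ∀ x y, d.A k x y ↔ ∃ l, F.G.E x l y) (hhub : ∀ x, d.hub k x = F.hub x)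
    (hs : ∀ x, d.s k x = F.s x) (hD : d.D k = (F.rho : ℝ) ^ 2)
    (hfin : (Set.range F.hub).Finite) (hpf : ∀ N, {z | F.piece z = N}.Finite)
    (hpn : ∀ N, 1 ≤ N → {z | F.piece z = N}.Nonempty)
    (hdeg : ∀ z, 1 ≤ F.piece z → 3 ≤ (F.G.letters z).card)
    (lam : ℝ) (hlam : 10 ^ 6 * (|lam| + 1) ≤ (F.rho : ℝ)) :
    ¬ HasBAP (FreeSpace (Vtx d) (Vtx.base : Vtx d)) lam := by
  classical
  intro hB
  set ρ : ℝ := (F.rho : ℝ) with hρ
  set L : ℝ := |lam| with hL
  have hL0 : 0 ≤ L := abs_nonneg _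
  have hρ1 : (10 : ℝ) ^ 6 ≤ ρ := by nlinarith
  have hρpos : 0 < ρ := by linarith
  have hLρ : L / ρ ≤ 1 / 10 ^ 6 := by
    rw [div_le_div_iff₀ hρpos (by norm_num)]
    nlinarith
  let pt : d.V k → Vtx d := Vtx.pt k
  have hptinj : Function.Injective pt := pt_injective k
  have hsep : ∀ x y : Vtx d, x ≠ y → 1 ≤ dist x y := fun _ _ h => dist_ge_one h
  have hC : IsCompact ((fun a => (delta (pt a) : FreeSpace (Vtx d) (Vtx.base : Vtx d))) ''
      Set.range F.hub) := (hfin.image _).isCompact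
  obtain ⟨T, hTfin, hTnorm, hTapp⟩ := hB _ hC 1 one_pos
  have hTL : ‖T‖ ≤ L := hTnorm.trans (le_abs_self _)
  have hTnear : ∀ z, ‖T (delta (pt (F.hub z))) - delta (pt (F.hub z))‖ < 1 := fun z =>
    hTapp _ ⟨F.hub z, ⟨z, rfl⟩, rfl⟩
  set η : ℝ := 1 / ρ with hη
  have hηpos : 0 < η := by positivity
  have hR : ∀ x ∈ Set.range pt, ‖(delta x : FreeSpace (Vtx d) (Vtx.base : Vtx d))‖ ≤ max 1 (d.D k) := by
    rintro x ⟨y, rfl⟩
    exact (norm_delta_le _).trans (dist_base_le y)
  obtain ⟨F0, hF0⟩ := model_approx (o := (Vtx.base : Vtx d)) hsep T hTfin (Set.range pt) _ hR η hηpos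
  let Y0 : Finset (d.V k) := F0.preimage pt hptinj.injOn
  let Y : Finset (d.V k) := Y0 ∪ Y0.image F.hub
  let Ω : Finset (Vtx d) := F0 ∪ Y.image pt
  let c : d.V k → d.V k → ℝ := fun z y =>
    toDual (T (delta (pt z))) (bumpAt hsep (pt y))
  have hsum : ∀ (g : d.V k → ℝ) (a : Vtx d → ℝ),
      (∑ u ∈ Ω.erase (Vtx.base : Vtx d), extZ k g u * a u) = ∑ y ∈ Y, g y * a (pt y) := by
    intro g a
    have hsub : Y.image pt ⊆ Ω.erase (Vtx.base : Vtx d) := by
      intro u hu
      refine Finset.mem_erase.2 ⟨?_, Finset.mem_union_right _ hu⟩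
      obtain ⟨y, _, rfl⟩ := Finset.mem_image.1 hu
      exact pt_ne_base y
    rw [← Finset.sum_subset hsub, Finset.sum_image hptinj.injOn]
    · exact Finset.sum_congr rfl (fun y _ => by rw [show extZ k g (pt y) = g y from extZ_pt k g y])
    · intro u hu hnot
      have hno : ¬ ∃ x, u = Vtx.pt k x := by
        rintro ⟨x, rfl⟩
        rcases Finset.mem_union.1 (Finset.mem_of_mem_erase hu) with h | h
        · exact hnot (Finset.mem_image_of_mem pt
            (Finset.mem_union_left _ (Finset.mem_preimage.2 h)))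
        · exact hnot h
      rw [extZ_of_not g hno, zero_mul]
  have hextabs : ∀ (g : d.V k → ℝ) (B : ℝ), 0 ≤ B → (∀ y, |g y| ≤ B) → ∀ u, |extZ k g u| ≤ B := by
    intro g B hB0 hg u
    by_cases hu : ∃ x, u = Vtx.pt k x
    · obtain ⟨x, rfl⟩ := hu
      rw [extZ_pt]
      exact hg x
    · rw [extZ_of_not g hu, abs_zero]
      exact hB0
  have hM : ∀ (g : d.V k → ℝ) (G : Lip0 (Vtx d) (Vtx.base : Vtx d)), (∀ u, G u = extZ k g u) →
      (∀ y, |g y| ≤ 1) → ‖G‖ ≤ 1 → ∀ z,
        |toDual (T (delta (pt z))) G - ∑ y ∈ Y, g y * c z y| ≤ η := by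
    intro g G hGu hg hGn z
    have h := hF0 Ω Finset.subset_union_left (pt z) ⟨z, rfl⟩ G
      (fun p => by rw [hGu p]; exact hextabs g 1 zero_le_one hg p) hGn
    have e : ∑ u ∈ Ω.erase (Vtx.base : Vtx d), G u * toDual (T (delta (pt z))) (bumpAt hsep u) =
        ∑ y ∈ Y, g y * c z y := by
      rw [Finset.sum_congr rfl (fun u _ => by rw [hGu u])]
      exact hsum g _
    rwa [e] at h
  have hadm : ∀ (g : d.V k → ℝ) (κ : ℝ), F.Adm κ g → 0 < κ → 1 / κ ≤ ρ ^ 2 →
      ∃ G : Lip0 (Vtx d) (Vtx.base : Vtx d), (∀ u, G u = extZ k g u) ∧ ‖G‖ ≤ κ := by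
    intro g κ hg hκ hκD
    have hlip : ∀ u v : Vtx d, |extZ k g u - extZ k g v| ≤ κ * dist u v := by
      refine extZ_lip hκ (by rw [hD]; exact hκD) hg.1 ?_ ?_
      · intro x y hxy
        obtain ⟨l, hl⟩ := (hA x y).1 hxy
        exact hg.2.1 x l y hl
      · intro x
        rw [hhub, hs]
        exact hg.2.2 x
    exact ⟨mkLip0 (extZ k g) (extZ_base k g) κ hκ.le hlip, fun _ => rfl, mkLip0_norm _ _ _ _ _⟩
  have hspoke : ∀ z, dist (pt z) (pt (F.hub z)) ≤ ρ := by
    intro z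
    have h := dist_spoke (d := d) (ρ := k) z
    rw [hhub, hs] at h
    refine h.trans ?_
    rw [hρ]
    exact_mod_cast F.s_le z
  -- first hypothesis of the main inequality
  have h1 : ∀ z ∈ (hpf (Y.sup F.piece + 1)).toFinset, ∀ l z', F.G.E z l z' → ∀ g,
      F.Adm (33 / (F.rho : ℝ)) g → |∑ y ∈ Y, (c z y - c z' y) * g y| ≤ L * (33 / ρ) + 2 * η := by
    intro z _ l z' hE g hg
    have hκ : 0 < 33 / ρ := by positivity
    have hκ1 : 33 / ρ ≤ 1 := by
      rw [div_le_one hρpos]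
      linarith
    have hκD : 1 / (33 / ρ) ≤ ρ ^ 2 := by
      have e : 1 / (33 / ρ) = ρ / 33 := by field_simp
      rw [e, div_le_iff₀ (by norm_num)]
      nlinarith
    obtain ⟨G, hGu, hGn⟩ := hadm g _ hg hκ hκD
    have a1 := hM g G hGu hg.1 (hGn.trans hκ1) z
    have a2 := hM g G hGu hg.1 (hGn.trans hκ1) z'
    have a3 := op_diff T hTL (pt z) (pt z') G
    have hd : dist (pt z) (pt z') ≤ 1 := dist_edge ((hA z z').2 ⟨l, hE⟩)
    have a4 : L * dist (pt z) (pt z') * ‖G‖ ≤ L * (33 / ρ) := by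
      have h0 := Lip0.norm_nonneg' G
      have h00 : 0 ≤ dist (pt z) (pt z') := dist_nonneg
      calc L * dist (pt z) (pt z') * ‖G‖ ≤ L * 1 * (33 / ρ) := by
            apply mul_le_mul _ hGn h0 (by positivity)
            exact mul_le_mul_of_nonneg_left hd hL0
        _ = L * (33 / ρ) := by ring
    have e : ∑ y ∈ Y, (c z y - c z' y) * g y = ∑ y ∈ Y, g y * c z y - ∑ y ∈ Y, g y * c z' y := by
      rw [← Finset.sum_sub_distrib]
      exact Finset.sum_congr rfl (fun y _ => by ring)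
    rw [e]
    have b1 := abs_le.1 a1
    have b2 := abs_le.1 a2
    have b3 := abs_le.1 (a3.trans a4)
    rw [abs_le]
    constructor <;> linarith [b1.1, b1.2, b2.1, b2.2, b3.1, b3.2]
  -- second hypothesis
  have h2 : ∀ z ∈ (hpf (Y.sup F.piece + 1)).toFinset, 1 / 2 ≤ ∑ y ∈ Y, c z y * F.phi z y := by
    intro z _
    have hg := F.adm_phi z
    have hρ2 : (10 : ℝ) ^ 6 * ρ ≤ ρ ^ 2 := by nlinarith
    have hκ : 0 < 4 / ρ ^ 2 := by positivity
    have hκ1 : 4 / ρ ^ 2 ≤ 1 := by
      rw [div_le_one (by positivity)]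
      nlinarith
    have hκD : 1 / (4 / ρ ^ 2) ≤ ρ ^ 2 := by
      have e : 1 / (4 / ρ ^ 2) = ρ ^ 2 / 4 := by field_simp
      rw [e, div_le_iff₀ (by norm_num)]
      nlinarith [sq_nonneg ρ]
    obtain ⟨G, hGu, hGn⟩ := hadm _ _ hg hκ hκD
    have a1 := hM _ G hGu hg.1 (hGn.trans hκ1) z
    have a2 := op_diff T hTL (pt z) (pt (F.hub z)) G
    have a3 := op_near T (pt (F.hub z)) (hTnear z) G
    have hGh : G (pt (F.hub z)) = 1 := by
      rw [hGu]
      exact (extZ_pt k _ _).trans (F.phi_hub z)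
    rw [hGh] at a3
    have h0 := Lip0.norm_nonneg' G
    have a4 : L * dist (pt z) (pt (F.hub z)) * ‖G‖ ≤ L * ρ * (4 / ρ ^ 2) := by
      apply mul_le_mul _ hGn h0 (by positivity)
      exact mul_le_mul_of_nonneg_left (hspoke z) hL0
    have e1 : L * ρ * (4 / ρ ^ 2) = 4 * (L / ρ) := by
      field_simp
    rw [e1] at a4
    have hκ2 : 4 / ρ ^ 2 ≤ 4 / 10 ^ 6 := by
      apply div_le_div_of_nonneg_left (by norm_num) (by norm_num)
      nlinarith
    have hη2 : η ≤ 1 / 10 ^ 6 := one_div_le_one_div_of_le (by norm_num) hρ1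
    have b1 := abs_le.1 a1
    have b2 := abs_le.1 (a2.trans a4)
    have b3 := abs_le.1 a3
    have e : ∑ y ∈ Y, c z y * F.phi z y = ∑ y ∈ Y, F.phi z y * c z y :=
      Finset.sum_congr rfl (fun y _ => mul_comm _ _)
    rw [e]
    norm_num at hκ2 hη2 hLρ
    linarith [b1.1, b1.2, b2.1, b2.2, b3.1, b3.2]
  -- third hypothesis
  have h3 : ∀ z ∈ (hpf (Y.sup F.piece + 1)).toFinset, ∑ y ∈ Y, |c z y| ≤
      2 * (η + L * ρ + 3 / 2) := by
    intro z _
    let g : d.V k → ℝ := fun y => if y ∈ Y then (if 0 ≤ c z y then 1 / 2 else - (1 / 2)) else 0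
    have hg12 : ∀ y, |g y| ≤ 1 / 2 := by
      intro y
      simp only [g]
      split_ifs <;> norm_num
    have hlip : ∀ u v : Vtx d, |extZ k g u - extZ k g v| ≤ 1 * dist u v := by
      intro u v
      rcases eq_or_ne u v with rfl | huv
      · simp
      · have h1' := hsep u v huv
        have h2' := abs_le.1 (hextabs g (1 / 2) (by norm_num) hg12 u)
        have h3' := abs_le.1 (hextabs g (1 / 2) (by norm_num) hg12 v)
        rw [one_mul, abs_le]
        constructor <;> linarith [h2'.1, h2'.2, h3'.1, h3'.2]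
    let G : Lip0 (Vtx d) (Vtx.base : Vtx d) :=
      mkLip0 (extZ k g) (extZ_base k g) 1 zero_le_one hlip
    have hGu : ∀ u, G u = extZ k g u := fun _ => rfl
    have hGn : ‖G‖ ≤ 1 := mkLip0_norm _ _ _ _ _
    have a1 := hM g G hGu (fun y => (hg12 y).trans (by norm_num)) hGn z
    have a2 := op_diff T hTL (pt z) (pt (F.hub z)) G
    have a3 := op_near T (pt (F.hub z)) (hTnear z) G
    have h0 := Lip0.norm_nonneg' G
    have a4 : L * dist (pt z) (pt (F.hub z)) * ‖G‖ ≤ L * ρ * 1 := by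
      apply mul_le_mul _ hGn h0 (by positivity)
      exact mul_le_mul_of_nonneg_left (hspoke z) hL0
    have a5 : |G (pt (F.hub z))| ≤ 1 / 2 := by
      rw [hGu]
      exact hextabs g (1 / 2) (by norm_num) hg12 _
    have e : ∑ y ∈ Y, g y * c z y = (∑ y ∈ Y, |c z y|) / 2 := by
      rw [Finset.sum_div]
      refine Finset.sum_congr rfl (fun y hy => ?_)
      simp only [g, if_pos hy]
      split_ifs with h
      · rw [abs_of_nonneg h]
        ring
      · rw [abs_of_neg (not_le.1 h)]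
        ring
    rw [e] at a1
    have b1 := abs_le.1 a1
    have b2 := abs_le.1 (a2.trans a4)
    have b3 := abs_le.1 a3
    have b5 := abs_le.1 a5
    have hGn' := hGn
    linarith [b1.1, b1.2, b2.1, b2.2, b3.1, b3.2, b5.1, b5.2]
  -- apply the main inequality
  set N : ℕ := Y.sup F.piece + 1 with hN
  have hYhub : ∀ y ∈ Y, F.hub y ∈ Y := by
    intro y hy
    rcases Finset.mem_union.1 hy with h | h
    · exact Finset.mem_union_right _ (Finset.mem_image_of_mem _ h)
    · obtain ⟨x, hx, rfl⟩ := Finset.mem_image.1 h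
      rw [F.hub_hub]
      exact h |> Finset.mem_union_right _
  have hY : ∀ y ∈ Y, F.piece y < N := by
    intro y hy
    have := Finset.le_sup (f := F.piece) hy
    omega
  have hZ : ∀ z ∈ (hpf N).toFinset, F.piece z = N := fun z hz =>
    (hpf N).mem_toFinset.1 hz
  have hZE : ∀ z ∈ (hpf N).toFinset, ∀ l z', F.G.E z l z' → z' ∈ (hpf N).toFinset := by
    intro z hz l z' hE
    refine (hpf N).mem_toFinset.2 ?_
    show F.piece z' = N
    rw [F.piece_step hE]
    exact hZ z hz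
  have hZ3 : ∀ z ∈ (hpf N).toFinset, 3 ≤ (F.G.letters z).card := by
    intro z hz
    apply hdeg
    rw [hZ z hz, hN]
    omega
  have hmain := F.main_ineq Y (hpf N).toFinset N hYhub hY hZ hZE hZ3 c _ _ h1 h2 h3
  have hZne : ((hpf N).toFinset).Nonempty := by
    obtain ⟨z, hz⟩ := hpn N (by omega)
    exact ⟨z, (hpf N).mem_toFinset.2 hz⟩
  have hcard : (0 : ℝ) < ((hpf N).toFinset.card : ℝ) := by
    exact_mod_cast hZne.card_pos
  have hcardA : (Fintype.card (Alph × Bool) : ℝ) = 240 := by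
    simp only [Fintype.card_prod, Fintype.card_bool, Alph, Fintype.card_fin]
    norm_num
  rw [hcardA] at hmain
  have hnum := final_numeric (L := L) (ρ := ρ) hL0 hlam
  have hfin' : ((hpf N).toFinset.card : ℝ) / 2 ≤ ((hpf N).toFinset.card : ℝ) *
      (240 * ((L * (33 / ρ) + 2 * (1 / ρ)) + (2 * (1 / ρ + L * ρ + 3 / 2)) / ρ ^ 2)) := by
    calc ((hpf N).toFinset.card : ℝ) / 2 ≤ _ := hmain
      _ = _ := by ring
  have hfin'' : ((hpf N).toFinset.card : ℝ) *
      (240 * ((L * (33 / ρ) + 2 * (1 / ρ)) + (2 * (1 / ρ + L * ρ + 3 / 2)) / ρ ^ 2)) <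
      ((hpf N).toFinset.card : ℝ) * (1 / 2) := mul_lt_mul_of_pos_left hnum hcard
  linarith

/-- `F(Kal)` fails the BAP with every constant. -/
theorem not_bap (lam : ℝ) : ¬ HasBAP (freeSpace Kal Vtx.base) lam := by
  intro h
  obtain ⟨k, hk⟩ := exists_nat_ge ((10 : ℝ) ^ 6 * (|lam| + 1))
  have hr := (frames k).rho_eq
  refine layer_false (d := theData) k (frames k).F (fun x y => Iff.rfl) (fun _ => rfl) (fun _ => rfl)
    ?_ (frames k).hubs_fin (frames k).piece_fin (frames k).piece_ne (frames k).deg3 lam ?_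
    (hasBAP_freeSpace h)
  · rw [hr]
    show (((k : ℝ) + 100)) ^ 2 = _
    push_cast
    ring
  · rw [hr]
    push_cast
    linarith

/-- Summary statement. -/
theorem kalton_negative :
    ∃ (M : Type) (_ : MetricSpace M) (o : M), Countable M ∧ (∀ x y : M, x ≠ y → 1 ≤ dist x y) ∧
      ∀ lam : ℝ, ¬ HasBAP (freeSpace M o) lam := by
  have hc : ∀ k, Countable (theData.V k) := by
    intro k
    have h1 : (Set.univ : Set (frames k).V) = ⋃ N, {z | (frames k).F.piece z = N} := by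
      ext z
      simp
    have h2 : (Set.univ : Set (frames k).V).Countable := by
      rw [h1]
      exact Set.countable_iUnion (fun N => ((frames k).piece_fin N).countable)
    exact Set.countable_univ_iff.1 h2
  have hK : Countable Kal := by
    show Countable (Option (Σ ρ, theData.V ρ))
    infer_instance
  exact ⟨Kal, inferInstance, Vtx.base, hK, fun _ _ h => dist_ge_one h, not_bap⟩

end Vale.Agent.Lib.P090K
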