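import Vale.Agent.Lib.P090K.Words

/-!
Finite quotients of free groups of large girth (residual finiteness of free groups, with the
permutation proof). Blueprint section 1 (G).
-/

namespace Vale.Agent.Lib.P090K

open FreeGroup

section Girth

variable {α : Type} [Fintype α] [DecidableEq α] (R : ℕ)

/-- The ball of radius `R` of the free group. -/
private abbrev BallF (α : Type) [DecidableEq α] (R : ℕ) : Type :=
  {g : FreeGroup α // FreeGroup.norm g ≤ R}

private lemma finite_ballF : Finite (BallF α R) := by
  have h1 : {l : List (α × Bool) | l.length ≤ R}.Finite := List.finite_length_le _ R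
  have h2 : {g : FreeGroup α | FreeGroup.norm g ≤ R}.Finite :=
    Set.Finite.preimage (f := FreeGroup.toWord) (toWord_injective.injOn) h1
  exact h2.to_subtype

/-- The partial translation by a generator, as a bijection between two parts of the ball. -/
private def partF (a : α) :
    {g : BallF α R // FreeGroup.norm (of a * g.1) ≤ R} ≃
      {g : BallF α R // FreeGroup.norm ((of a)⁻¹ * g.1) ≤ R} where
  toFun g := ⟨⟨of a * g.1.1, g.2⟩, by
    show FreeGroup.norm ((of a)⁻¹ * (of a * g.1.1)) ≤ R
    rw [inv_mul_cancel_left]
    exact g.1.2⟩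
  invFun g := ⟨⟨(of a)⁻¹ * g.1.1, g.2⟩, by
    show FreeGroup.norm (of a * ((of a)⁻¹ * g.1.1)) ≤ R
    rw [mul_inv_cancel_left]
    exact g.1.2⟩
  left_inv g := by
    apply Subtype.ext
    apply Subtype.ext
    show (of a)⁻¹ * (of a * g.1.1) = g.1.1
    rw [inv_mul_cancel_left]
  right_inv g := by
    apply Subtype.ext
    apply Subtype.ext
    show of a * ((of a)⁻¹ * g.1.1) = g.1.1
    rw [mul_inv_cancel_left]

end Girth

/-- For every `R` there is a finite quotient of the free group in which no nontrivial element of
FreeGroup.norm at most `R` dies. -/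
theorem exists_girth {α : Type} [Fintype α] [DecidableEq α] (R : ℕ) :
    ∃ (Q : Type) (_ : Group Q) (_ : Fintype Q) (ψ : FreeGroup α →* Q),
      Function.Surjective ψ ∧ ∀ w : FreeGroup α, w ≠ 1 → FreeGroup.norm w ≤ R → ψ w ≠ 1 := by
  classical
  have hfin : Finite (BallF α R) := finite_ballF R
  letI : Fintype (BallF α R) := Fintype.ofFinite _
  let σ : α → Equiv.Perm (BallF α R) := fun a => (partF R a).extendSubtype
  have hσ : ∀ (a : α) (g : BallF α R) (h : FreeGroup.norm (of a * g.1) ≤ R), σ a g = ⟨of a * g.1, h⟩ := by
    intro a g h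
    have := Equiv.extendSubtype_apply_of_mem (partF R a) g h
    rw [show σ a g = (partF R a).extendSubtype g from rfl, this]
    rfl
  let Φ : FreeGroup α →* Equiv.Perm (BallF α R) := FreeGroup.lift σ
  have hΦa : ∀ a : α, Φ (of a) = σ a := fun a => FreeGroup.lift_apply_of
  let base : BallF α R := ⟨1, by simp⟩
  have key : ∀ L : List (α × Bool), FreeGroup.IsReduced L → L.length ≤ R →
      (Φ (FreeGroup.mk L) base).1 = FreeGroup.mk L := by
    intro L
    induction L with
    | nil =>
      intro _ _
      have : (FreeGroup.mk [] : FreeGroup α) = 1 := rfl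
      rw [this, _root_.map_one]
      rfl
    | cons l L' ih =>
      intro hred hlen
      have hred' : FreeGroup.IsReduced L' := hred.of_cons
      have hlen' : L'.length ≤ R := by
        simp only [List.length_cons] at hlen
        omega
      have ih' := ih hred' hlen'
      have hmul : (FreeGroup.mk (l :: L') : FreeGroup α) = FreeGroup.mk [l] * FreeGroup.mk L' := by
        rw [FreeGroup.mul_mk]
        rfl
      have hnorm : FreeGroup.norm (FreeGroup.mk (l :: L') : FreeGroup α) ≤ R := by
        unfold FreeGroup.norm
        rw [FreeGroup.toWord_mk, hred.reduce_eq]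
        exact hlen
      rw [hmul, _root_.map_mul, Equiv.Perm.mul_apply]
      set g := Φ (FreeGroup.mk L') base with hg
      obtain ⟨a, b⟩ := l
      cases b with
      | true =>
        have e : (FreeGroup.mk [(a, true)] : FreeGroup α) = of a := rfl
        rw [e, hΦa, hσ a g (by rw [ih', ← e, ← hmul]; exact hnorm)]
        show of a * g.1 = _
        rw [ih']
      | false =>
        have e : (FreeGroup.mk [(a, false)] : FreeGroup α) = (of a)⁻¹ := rfl
        rw [e, _root_.map_inv, hΦa]
        have hh : FreeGroup.norm ((of a)⁻¹ * g.1) ≤ R := by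
          rw [ih', ← e, ← hmul]
          exact hnorm
        have hs : σ a ⟨(of a)⁻¹ * g.1, hh⟩ = g := by
          rw [hσ a ⟨(of a)⁻¹ * g.1, hh⟩ (by
            show FreeGroup.norm (of a * ((of a)⁻¹ * g.1)) ≤ R
            rw [mul_inv_cancel_left]
            exact g.2)]
          apply Subtype.ext
          show of a * ((of a)⁻¹ * g.1) = g.1
          rw [mul_inv_cancel_left]
        have hs' : (σ a)⁻¹ g = ⟨(of a)⁻¹ * g.1, hh⟩ := by
          rw [Equiv.Perm.inv_eq_iff_eq]
          exact hs.symm
        rw [hs']
        show (of a)⁻¹ * g.1 = _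
        rw [ih']
  refine ⟨Φ.range, inferInstance, Fintype.ofFinite _, Φ.rangeRestrict,
    MonoidHom.rangeRestrict_surjective Φ, ?_⟩
  intro w hw hn h1
  have h2 : Φ w = 1 := by
    have := congrArg Subtype.val h1
    simpa using this
  have h3 := key (FreeGroup.toWord w) FreeGroup.isReduced_toWord hn
  rw [FreeGroup.mk_toWord, h2] at h3
  exact hw h3.symm

end Vale.Agent.Lib.P090K
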