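import Vale.Agent.Lib.P090K.Words

/-!
Walks in labelled graphs. Blueprint section 0.
-/

namespace Vale.Agent.Lib.P090K

open FreeGroup

variable {α V : Type} {G : LG α V} {D D' : Set V}

theorem LG.ReadIn.left_mem {x y : V} {w : List (α × Bool)} (h : G.ReadIn D x w y) : x ∈ D := by
  cases h with
  | nil hx => exact hx
  | cons hx _ _ => exact hx

theorem LG.ReadIn.right_mem {x y : V} {w : List (α × Bool)} (h : G.ReadIn D x w y) : y ∈ D := by
  induction h with
  | nil hx => exact hx
  | cons _ _ _ ih => exact ih

theorem LG.ReadIn.mono {x y : V} {w : List (α × Bool)} (hD : D ⊆ D') (h : G.ReadIn D x w y) :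
    G.ReadIn D' x w y := by
  induction h with
  | nil hx => exact LG.ReadIn.nil (hD hx)
  | cons hx he _ ih => exact LG.ReadIn.cons (hD hx) he ih

theorem LG.ReadIn.read {x y : V} {w : List (α × Bool)} (h : G.ReadIn D x w y) : G.Read x w y :=
  h.mono (Set.subset_univ _)

theorem LG.ReadIn.append {x y z : V} {u v : List (α × Bool)} (h : G.ReadIn D x u y)
    (h' : G.ReadIn D y v z) : G.ReadIn D x (u ++ v) z := by
  induction h with
  | nil _ => simpa using h'
  | cons hx he _ ih => exact LG.ReadIn.cons hx he (ih h')

theorem LG.ReadIn.split {x z : V} {u v : List (α × Bool)} (h : G.ReadIn D x (u ++ v) z) :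
    ∃ y, G.ReadIn D x u y ∧ G.ReadIn D y v z := by
  induction u generalizing x with
  | nil => exact ⟨x, LG.ReadIn.nil h.left_mem, h⟩
  | cons l u ih =>
    cases h with
    | cons hx he hr =>
      obtain ⟨y, h1, h2⟩ := ih hr
      exact ⟨y, LG.ReadIn.cons hx he h1, h2⟩

theorem LG.ReadIn.reverse {x y : V} {w : List (α × Bool)} (h : G.ReadIn D x w y) :
    G.ReadIn D y (invRev w) x := by
  induction h with
  | nil hx => simpa [FreeGroup.invRev] using LG.ReadIn.nil hx
  | @cons a b c l w hx he hr ih =>
    have hs : G.E b (linv l) a := G.symm he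
    have h1 : G.ReadIn D b [linv l] a := LG.ReadIn.cons hr.left_mem hs (LG.ReadIn.nil hx)
    have h2 := ih.append h1
    have h3 : invRev (l :: w) = invRev w ++ [linv l] := by
      simp [FreeGroup.invRev, linv]
    rw [h3]
    exact h2

/-- A backtrack can be deleted from a walk. -/
theorem LG.ReadIn.step {x y : V} {w w' : List (α × Bool)} (hs : FreeGroup.Red.Step w w')
    (h : G.ReadIn D x w y) : G.ReadIn D x w' y := by
  cases hs with
  | @not L₁ L₂ a b =>
    obtain ⟨m, h1, h2⟩ := LG.ReadIn.split h
    cases h2 with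
    | cons hm he hr =>
      cases hr with
      | cons hm2 he2 hr2 =>
        have hs' := G.symm he
        have heq := G.det hs' he2
        subst heq
        exact h1.append hr2

/-- Deleting a backtrack keeps a walk; so a walk can be replaced by its reduced word. -/
theorem LG.ReadIn.reduce [DecidableEq α] {x y : V} {w : List (α × Bool)} (h : G.ReadIn D x w y) :
    G.ReadIn D x (FreeGroup.reduce w) y := by
  have key : ∀ w' : List (α × Bool), FreeGroup.Red w w' → G.ReadIn D x w' y := by
    intro w' hr
    induction hr with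
    | refl => exact h
    | tail _ hs ih => exact LG.ReadIn.step hs ih
  exact key _ FreeGroup.reduce.red

/-- A factor of a readable word is readable, from a vertex reachable from the start. -/
theorem LG.Read.factor {x y : V} {w w' : List (α × Bool)} (h : G.Read x w y) (hw : w' <:+: w) :
    ∃ a b c, G.Read x a b ∧ G.Read b w' c := by
  obtain ⟨s, t, rfl⟩ := hw
  have h' : G.ReadIn Set.univ x (s ++ (w' ++ t)) y := by
    have h0 : G.ReadIn Set.univ x (s ++ w' ++ t) y := h
    rwa [List.append_assoc] at h0
  obtain ⟨b, h1, h2⟩ := LG.ReadIn.split h'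
  obtain ⟨c, h3, _⟩ := LG.ReadIn.split h2
  exact ⟨s, b, c, h1, h3⟩

end Vale.Agent.Lib.P090K
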