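import Vale.Agent.Lib.P090K.Weights
import Vale.Agent.Lib.P090K.Cheeger

/-!
The main finite inequality. Blueprint section 9.
-/

namespace Vale.Agent.Lib.P090K

open FreeGroup

namespace Frame

variable {α V Q : Type} [Fintype α] [DecidableEq α] [Group Q] (F : Frame α V Q)

omit [Fintype α] in
/-- The estimate along one letter, summed over the states at `z`. -/
theorem main_ineq_letter (Y : Finset V) (hYhub : ∀ y ∈ Y, F.hub y ∈ Y)
    (J : V → Finset (Set V)) (hJq : ∀ z, ∀ D ∈ J z, ∃ q, D = F.comp z q)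
    (hy1 : ∀ z, ∀ y ∈ Y, y ∈ F.B z → F.comp z y ∈ J z)
    (c : V → V → ℝ) (B1 B3 : ℝ) {z z' : V} {l : α × Bool} (hE : F.G.E z l z')
    (h1 : ∀ g, F.Adm (33 / (F.rho : ℝ)) g → |∑ y ∈ Y, (c z y - c z' y) * g y| ≤ B1)
    (h3 : ∑ y ∈ Y, |c z' y| ≤ B3) :
    ∑ D ∈ J z, |∑ y ∈ Y, c z y * F.Wt z D y -
        ∑ y ∈ Y, c z' y * F.Wt z' (partner (J z') D) y| ≤ B1 + B3 / (F.rho : ℝ) ^ 2 := by
  classical
  have hy2 : ∀ z, ∀ y ∈ Y, F.hub y ∈ F.B z → F.comp z (F.hub y) ∈ J z :=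
    fun z y hy h => hy1 z _ (hYhub y hy) h
  let a : Set V → ℝ := fun D => ∑ y ∈ Y, (c z y - c z' y) * F.Wt z D y
  let b : Set V → ℝ := fun D =>
    ∑ y ∈ Y, c z' y * (F.Wt z D y - F.Wt z' (partner (J z') D) y)
  have hsplit : ∀ D, ∑ y ∈ Y, c z y * F.Wt z D y -
      ∑ y ∈ Y, c z' y * F.Wt z' (partner (J z') D) y = a D + b D := by
    intro D
    simp only [a, b]
    rw [← Finset.sum_add_distrib, ← Finset.sum_sub_distrib]
    refine Finset.sum_congr rfl fun y _ => ?_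
    ring
  -- first part: signs
  let ε : Set V → ℝ := fun D => if 0 ≤ a D then 1 else -1
  have hε : ∀ D, |ε D| ≤ 1 := by
    intro D
    simp only [ε]
    split_ifs <;> simp
  have hεa : ∀ D, |a D| = ε D * a D := by
    intro D
    simp only [ε]
    split_ifs with h
    · rw [abs_of_nonneg h, one_mul]
    · rw [abs_of_neg (not_le.1 h)]
      ring
  have hfirst : ∑ D ∈ J z, |a D| ≤ B1 := by
    have h2 : ∑ D ∈ J z, |a D| = ∑ y ∈ Y, (c z y - c z' y) * F.gSigned z ε y := by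
      calc ∑ D ∈ J z, |a D| = ∑ D ∈ J z, ∑ y ∈ Y, (c z y - c z' y) * (ε D * F.Wt z D y) := by
            refine Finset.sum_congr rfl fun D _ => ?_
            rw [hεa D]
            simp only [a]
            rw [Finset.mul_sum]
            refine Finset.sum_congr rfl fun y _ => ?_
            ring
        _ = ∑ y ∈ Y, ∑ D ∈ J z, (c z y - c z' y) * (ε D * F.Wt z D y) := Finset.sum_comm
        _ = ∑ y ∈ Y, (c z y - c z' y) * F.gSigned z ε y := by
            refine Finset.sum_congr rfl fun y hy => ?_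
            rw [← Finset.mul_sum, F.sum_Wt_mul_sign z y (J z) ε (hy1 z y hy) (hy2 z y hy)]
    rw [h2]
    exact (le_abs_self _).trans (h1 _ (F.adm_gSigned z ε hε))
  -- second part: matching
  have hsecond : ∑ D ∈ J z, |b D| ≤ B3 / (F.rho : ℝ) ^ 2 := by
    have h2 : ∑ D ∈ J z, |b D| ≤
        ∑ y ∈ Y, |c z' y| * ∑ D ∈ J z, |F.Wt z D y - F.Wt z' (partner (J z') D) y| := by
      calc ∑ D ∈ J z, |b D|
          ≤ ∑ D ∈ J z, ∑ y ∈ Y, |c z' y| * |F.Wt z D y - F.Wt z' (partner (J z') D) y| := by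
            refine Finset.sum_le_sum fun D _ => ?_
            refine (Finset.abs_sum_le_sum_abs _ _).trans (le_of_eq ?_)
            refine Finset.sum_congr rfl fun y _ => ?_
            rw [abs_mul]
        _ = ∑ y ∈ Y, ∑ D ∈ J z, |c z' y| * |F.Wt z D y - F.Wt z' (partner (J z') D) y| :=
            Finset.sum_comm
        _ = _ := by
            refine Finset.sum_congr rfl fun y _ => ?_
            rw [Finset.mul_sum]
    refine h2.trans ?_
    have h4 : ∑ y ∈ Y, |c z' y| * ∑ D ∈ J z, |F.Wt z D y - F.Wt z' (partner (J z') D) y| ≤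
        ∑ y ∈ Y, |c z' y| * (1 / (F.rho : ℝ) ^ 2) := by
      refine Finset.sum_le_sum fun y hy => ?_
      apply mul_le_mul_of_nonneg_left _ (abs_nonneg _)
      exact F.matching_pointwise hE (J z) (J z') (hJq z) (hJq z') y (hy1 z y hy) (hy2 z y hy)
        (hy1 z' y hy) (hy2 z' y hy)
    refine h4.trans ?_
    rw [← Finset.sum_mul, mul_one_div]
    exact div_le_div_of_nonneg_right h3 (by positivity)
  calc ∑ D ∈ J z, |∑ y ∈ Y, c z y * F.Wt z D y -
        ∑ y ∈ Y, c z' y * F.Wt z' (partner (J z') D) y|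
      = ∑ D ∈ J z, |a D + b D| := by
        refine Finset.sum_congr rfl fun D _ => ?_
        rw [hsplit]
    _ ≤ ∑ D ∈ J z, (|a D| + |b D|) := Finset.sum_le_sum fun D _ => abs_add_le _ _
    _ = ∑ D ∈ J z, |a D| + ∑ D ∈ J z, |b D| := Finset.sum_add_distrib
    _ ≤ _ := add_le_add hfirst hsecond

open Classical in
/-- The variation along a letter at a state. -/
noncomputable def stT (F : Frame α V Q) (J : V → Finset (Set V)) (xi : V → Set V → ℝ)
    (x : Σ _ : V, Set V) (l : α × Bool) : ℝ :=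
  if h : ∃ z', F.G.E x.1 l z' then
    |xi x.1 x.2 - xi h.choose (partner (J h.choose) x.2)| else 0

omit [Fintype α] in
theorem stT_eq (J : V → Finset (Set V)) (xi : V → Set V → ℝ)
    (x : Σ _ : V, Set V) (l : α × Bool) (z' : V) (hE : F.G.E x.1 l z') :
    F.stT J xi x l = |xi x.1 x.2 - xi z' (partner (J z') x.2)| := by
  have h : ∃ z', F.G.E x.1 l z' := ⟨z', hE⟩
  have h' : h.choose = z' := F.G.det h.choose_spec hE
  unfold stT
  rw [dif_pos h, h']

theorem mem_letters_iff (z : V) (l : α × Bool) : l ∈ F.G.letters z ↔ ∃ y, F.G.E z l y := by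
  simp [LG.letters]

/-- The combinatorial core: Cheeger on states. -/
theorem main_ineq_core (Z : Finset V) (hZE : ∀ z ∈ Z, ∀ l z', F.G.E z l z' → z' ∈ Z)
    (hZ3 : ∀ z ∈ Z, 3 ≤ (F.G.letters z).card) (J : V → Finset (Set V))
    (hJq : ∀ z, ∀ D ∈ J z, ∃ q, D = F.comp z q)
    (xi : V → Set V → ℝ) (xi_empty : ∀ z, xi z ∅ = 0)
    (hwalk : ¬ ∃ (x : ℕ → Σ _ : V, Set V) (l : ℕ → α × Bool), ∀ i, x i ∈ Z.sigma J ∧
      (F.G.E (x i).1 (l i) (x (i + 1)).1 ∧ ((x i).2 ∩ (x (i + 1)).2).Nonempty) ∧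
      l (i + 1) ≠ linv (l i))
    (Bd : ℝ)
    (key : ∀ z ∈ Z, ∀ l z', F.G.E z l z' →
      ∑ D ∈ J z, |xi z D - xi z' (partner (J z') D)| ≤ Bd)
    (hleft : ∀ z ∈ Z, (1 / 2 : ℝ) ≤ ∑ D ∈ J z, |xi z D|) :
    (Z.card : ℝ) / 2 ≤ (Z.card : ℝ) * (Fintype.card (α × Bool) : ℝ) * Bd := by
  classical
  have hS : ∀ x : (Σ _ : V, Set V), x ∈ Z.sigma J ↔ x.1 ∈ Z ∧ x.2 ∈ J x.1 := by
    intro x
    simp [Finset.mem_sigma]
  have hcheeger := forest_cheeger (Z.sigma J) (linv : α × Bool → α × Bool)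
    (by
      rintro ⟨a, b⟩ h
      simp only [linv, Prod.mk.injEq] at h
      cases b <;> simp at h)
    (by
      rintro ⟨a, b⟩
      simp [linv])
    (fun x l x' => F.G.E x.1 l x'.1 ∧ (x.2 ∩ x'.2).Nonempty) (fun x => F.G.letters x.1)
    (by
      rintro ⟨z, D⟩ hx l ⟨z1, D1⟩ hy ⟨z2, D2⟩ hy' ⟨hE1, hD1⟩ ⟨hE2, hD2⟩
      have hz : z1 = z2 := F.G.det hE1 hE2
      subst hz
      have hx' := ((hS _).1 hx).2
      have hy1' := ((hS _).1 hy).2
      have hy2' := ((hS _).1 hy').2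
      have : D1 = D2 := F.partner_unique hE1 (hJq _ _ hx') (hJq _ _ hy1') (hJq _ _ hy2') hD1 hD2
      subst this
      rfl)
    (by
      rintro ⟨z, D⟩ l ⟨z', D'⟩ ⟨hE, hD⟩
      refine ⟨F.G.symm hE, ?_⟩
      rwa [Set.inter_comm] at hD)
    (by
      rintro ⟨z, D⟩ l ⟨z', D'⟩ ⟨hE, _⟩
      exact (F.mem_letters_iff z l).2 ⟨z', hE⟩)
    (by
      intro x hx
      exact hZ3 _ ((hS x).1 hx).1)
    hwalk
    (fun x => |xi x.1 x.2|) (fun x => abs_nonneg _) (F.stT J xi)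
    (by
      rintro ⟨z, D⟩ hx l hl ⟨z', D'⟩ hy ⟨hE, hD⟩
      have hx' := ((hS _).1 hx).2
      have hy' := ((hS _).1 hy).2
      have hpart : partner (J z') D = D' := by
        have h : ∃ D'' ∈ J z', (D ∩ D'').Nonempty := ⟨D', hy', hD⟩
        have hp : partner (J z') D = h.choose := by
          unfold partner
          rw [dif_pos h]
        rw [hp]
        exact F.partner_unique hE (hJq _ _ hx') (hJq _ _ h.choose_spec.1) (hJq _ _ hy')
          h.choose_spec.2 hD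
      rw [F.stT_eq J xi ⟨z, D⟩ l z' hE]
      simp only [hpart]
      exact abs_abs_sub_abs_le _ _)
    (by
      rintro ⟨z, D⟩ hx l hl hno
      obtain ⟨z', hE⟩ := (F.mem_letters_iff z l).1 hl
      have hz : z ∈ Z := ((hS _).1 hx).1
      have hz' : z' ∈ Z := hZE z hz l z' hE
      have hpart : partner (J z') D = ∅ := by
        unfold partner
        rw [dif_neg]
        rintro ⟨D', hD', hne⟩
        exact hno ⟨⟨z', D'⟩, (hS _).2 ⟨hz', hD'⟩, hE, hne⟩
      rw [F.stT_eq J xi ⟨z, D⟩ l z' hE]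
      simp only [hpart, xi_empty, sub_zero]
      exact le_refl _)
  rw [Finset.sum_sigma, Finset.sum_sigma] at hcheeger
  have hleft' : (Z.card : ℝ) / 2 ≤ ∑ z ∈ Z, ∑ D ∈ J z, |xi z D| := by
    calc (Z.card : ℝ) / 2 = ∑ _z ∈ Z, (1 / 2 : ℝ) := by
          rw [Finset.sum_const, nsmul_eq_mul]
          ring
      _ ≤ _ := Finset.sum_le_sum hleft
  have hz : ∀ z ∈ Z, ∑ D ∈ J z, ∑ l ∈ F.G.letters z, F.stT J xi ⟨z, D⟩ l ≤
      (Fintype.card (α × Bool) : ℝ) * Bd := by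
    intro z hz
    have h5 : ∀ l ∈ F.G.letters z, ∑ D ∈ J z, F.stT J xi ⟨z, D⟩ l ≤ Bd := by
      intro l hl
      obtain ⟨z', hE⟩ := (F.mem_letters_iff z l).1 hl
      refine le_trans (le_of_eq ?_) (key z hz l z' hE)
      refine Finset.sum_congr rfl fun D _ => ?_
      exact F.stT_eq J xi ⟨z, D⟩ l z' hE
    have h6 : 0 ≤ Bd := by
      have hne : (F.G.letters z).Nonempty := by
        rw [← Finset.card_pos]
        have := hZ3 z hz
        omega
      obtain ⟨l, hl⟩ := hne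
      refine le_trans ?_ (h5 l hl)
      obtain ⟨z', hE⟩ := (F.mem_letters_iff z l).1 hl
      refine Finset.sum_nonneg fun D _ => ?_
      rw [F.stT_eq J xi ⟨z, D⟩ l z' hE]
      exact abs_nonneg _
    calc ∑ D ∈ J z, ∑ l ∈ F.G.letters z, F.stT J xi ⟨z, D⟩ l
        = ∑ l ∈ F.G.letters z, ∑ D ∈ J z, F.stT J xi ⟨z, D⟩ l := Finset.sum_comm
      _ ≤ ∑ _l ∈ F.G.letters z, Bd := Finset.sum_le_sum h5
      _ = ((F.G.letters z).card : ℝ) * Bd := by
          rw [Finset.sum_const, nsmul_eq_mul]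
      _ ≤ _ := by
          apply mul_le_mul_of_nonneg_right _ h6
          exact_mod_cast Finset.card_le_univ _
  have hright : ∑ z ∈ Z, ∑ D ∈ J z, ∑ l ∈ F.G.letters z, F.stT J xi ⟨z, D⟩ l ≤
      (Z.card : ℝ) * (Fintype.card (α × Bool) : ℝ) * Bd := by
    calc _ ≤ ∑ _z ∈ Z, (Fintype.card (α × Bool) : ℝ) * Bd := Finset.sum_le_sum hz
      _ = _ := by
          rw [Finset.sum_const, nsmul_eq_mul]
          ring
  exact hleft'.trans (hcheeger.trans hright)

/-- The main inequality: finite weights `c z y` on a finite hub-closed set `Y` of lower pieces,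
against all of piece `N`. -/
theorem main_ineq (Y Z : Finset V) (N : ℕ) (hYhub : ∀ y ∈ Y, F.hub y ∈ Y)
    (hY : ∀ y ∈ Y, F.piece y < N) (hZ : ∀ z ∈ Z, F.piece z = N)
    (hZE : ∀ z ∈ Z, ∀ l z', F.G.E z l z' → z' ∈ Z)
    (hZ3 : ∀ z ∈ Z, 3 ≤ (F.G.letters z).card) (c : V → V → ℝ) (B1 B3 : ℝ)
    (h1 : ∀ z ∈ Z, ∀ l z', F.G.E z l z' → ∀ g, F.Adm (33 / (F.rho : ℝ)) g →
      |∑ y ∈ Y, (c z y - c z' y) * g y| ≤ B1)
    (h2 : ∀ z ∈ Z, 1 / 2 ≤ ∑ y ∈ Y, c z y * F.phi z y)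
    (h3 : ∀ z ∈ Z, ∑ y ∈ Y, |c z y| ≤ B3) :
    (Z.card : ℝ) / 2 ≤
      (Z.card : ℝ) * (Fintype.card (α × Bool) : ℝ) * (B1 + B3 / (F.rho : ℝ) ^ 2) := by
  classical
  have hJp : ∀ z, ∀ D ∈ (Y.filter (fun p => p ∈ F.B z)).image (F.comp z),
      ∃ p ∈ Y, D = F.comp z p := by
    intro z D hD
    obtain ⟨p, hp, rfl⟩ := Finset.mem_image.1 hD
    exact ⟨p, (Finset.mem_filter.1 hp).1, rfl⟩
  have hy1 : ∀ z, ∀ y ∈ Y, y ∈ F.B z →
      F.comp z y ∈ (Y.filter (fun p => p ∈ F.B z)).image (F.comp z) := by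
    intro z y hy h
    exact Finset.mem_image.2 ⟨y, Finset.mem_filter.2 ⟨hy, h⟩, rfl⟩
  have hJq : ∀ z, ∀ D ∈ (Y.filter (fun p => p ∈ F.B z)).image (F.comp z),
      ∃ q, D = F.comp z q := by
    intro z D hD
    obtain ⟨p, _, h⟩ := hJp z D hD
    exact ⟨p, h⟩
  refine F.main_ineq_core Z hZE hZ3 (fun z => (Y.filter (fun p => p ∈ F.B z)).image (F.comp z))
    hJq (fun z D => ∑ y ∈ Y, c z y * F.Wt z D y) ?_ ?_ _ ?_ ?_
  · intro z
    simp [F.Wt_empty]
  · rintro ⟨x, l, hwalk⟩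
    choose hxS hxR hxl using hwalk
    have hS : ∀ i, (x i).1 ∈ Z ∧
        (x i).2 ∈ (Y.filter (fun p => p ∈ F.B (x i).1)).image (F.comp (x i).1) := by
      intro i
      have := hxS i
      rw [Finset.mem_sigma] at this
      exact this
    have hne : ∀ i, ((x i).2 ∩ (x (i + 1)).2).Nonempty := fun i => (hxR i).2
    choose y hy using hne
    obtain ⟨p, hp, hDp⟩ := hJp _ _ (hS 0).2
    have hy0 : y 0 ∈ F.comp (x 0).1 p := by
      have := (hy 0).1
      rwa [hDp] at this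
    refine F.no_walk (N := N) (m := F.piece (y 0)) ?_ (fun i => (x i).1) l (fun i => (x i).2) y
      (fun i => hZ _ (hS i).1) (fun i => (hxR i).1) hxl
      (fun i => hJq _ _ (hS i).2) hy rfl
    rw [F.piece_of_mem_comp hy0]
    exact hY p hp
  · intro z hz l z' hE
    exact F.main_ineq_letter Y hYhub _ hJq hy1 c B1 B3 hE (h1 z hz l z' hE)
      (h3 z' (hZE z hz l z' hE))
  · intro z hz
    refine (h2 z hz).trans ?_
    have h4 : ∑ y ∈ Y, c z y * F.phi z y =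
        ∑ D ∈ (Y.filter (fun p => p ∈ F.B z)).image (F.comp z), ∑ y ∈ Y, c z y * F.Wt z D y := by
      rw [Finset.sum_comm]
      refine Finset.sum_congr rfl fun y hy => ?_
      rw [← Finset.mul_sum, F.sum_Wt z y _ (hy1 z y hy) (fun h => hy1 z _ (hYhub y hy) h)]
    rw [h4]
    exact Finset.sum_le_sum fun D _ => le_abs_self _

end Frame

end Vale.Agent.Lib.P090K
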