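import Vale.Agent.Lib.P090K.Girth
import Vale.Agent.Lib.P090K.Graph
import Vale.Agent.Lib.P090K.Alter

/-!
The sequence of finite pieces with pairwise no long common reduced word. Blueprint section 2.
-/

namespace Vale.Agent.Lib.P090K

open FreeGroup

/-- The alphabet. -/
abbrev Alph : Type := Fin 120

/-- A piece: a finite nonempty labelled graph with at least `3` and at most `20` letters at each
vertex. -/
structure Piece where
  V : Type
  fin : Fintype V
  ne : Nonempty V
  G : LG Alph V
  deg3 : ∀ x, 3 ≤ (G.letters x).card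
  deg20 : ∀ x, (G.letters x).card ≤ 20

/-- The two pieces share a reduced word of length `r`. -/
def Piece.Common (P P' : Piece) (r : ℕ) : Prop :=
  ∃ w : List (Alph × Bool), IsReduced w ∧ w.length = r ∧
    (∃ x y, P.G.Read x w y) ∧ (∃ x y, P'.G.Read x w y)

/-! ### Counting the words readable in a piece -/

theorem read_cons_inv {α V : Type} {G : LG α V} {x z : V} {l : α × Bool}
    {w : List (α × Bool)} (h : G.Read x (l :: w) z) : ∃ y, G.E x l y ∧ G.Read y w z := by
  cases h with
  | cons _ h1 h2 => exact ⟨_, h1, h2⟩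

/-- The words of length `r` readable from a vertex: at most `20 ^ r`. -/
theorem exists_word_set {α V : Type} [Fintype α] (G : LG α V)
    (hd : ∀ x, (G.letters x).card ≤ 20) (r : ℕ) : ∀ x : V, ∃ F : Finset (List (α × Bool)),
    F.card ≤ 20 ^ r ∧ ∀ w y, w.length = r → G.Read x w y → w ∈ F := by
  classical
  induction r with
  | zero =>
    intro x
    refine ⟨{[]}, by simp, ?_⟩
    intro w y hw _
    simpa using List.length_eq_zero_iff.mp hw
  | succ r ih =>
    intro x
    choose F hF hF' using ih
    refine ⟨(G.letters x).biUnion (fun l =>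
      if h : ∃ y, G.E x l y then (F h.choose).image (List.cons l) else ∅), ?_, ?_⟩
    · refine Finset.card_biUnion_le.trans ?_
      have h1 : ∀ l ∈ G.letters x, ((if h : ∃ y, G.E x l y then
          (F h.choose).image (List.cons l) else ∅) : Finset (List (α × Bool))).card ≤ 20 ^ r := by
        intro l _
        split_ifs with h
        · exact Finset.card_image_le.trans (hF _)
        · simp
      refine (Finset.sum_le_card_nsmul _ _ _ h1).trans ?_
      rw [smul_eq_mul, pow_succ']
      exact Nat.mul_le_mul_right _ (hd x)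
    · intro w y hw hread
      cases w with
      | nil => simp at hw
      | cons l w =>
        obtain ⟨y', h1, h2⟩ := read_cons_inv hread
        have hl : l ∈ G.letters x := by
          simp only [LG.letters, Finset.mem_filter, Finset.mem_univ, true_and]
          exact ⟨_, h1⟩
        refine Finset.mem_biUnion.mpr ⟨l, hl, ?_⟩
        have hex : ∃ y, G.E x l y := ⟨_, h1⟩
        rw [dif_pos hex]
        have hy : hex.choose = y' := G.det hex.choose_spec h1
        rw [hy]
        refine Finset.mem_image.mpr ⟨w, hF' y' w y (by simpa using hw) h2, rfl⟩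

/-- The total number of vertices of a list of pieces. -/
noncomputable def totalV (L : List Piece) : ℕ := (L.map (fun P => @Fintype.card P.V P.fin)).sum

theorem exists_word_set_list (L : List Piece) (r : ℕ) : ∃ F : Finset (List (Alph × Bool)),
    F.card ≤ totalV L * 20 ^ r ∧ ∀ P ∈ L, ∀ w, w.length = r → (∃ x y, P.G.Read x w y) → w ∈ F := by
  classical
  induction L with
  | nil => exact ⟨∅, by simp, by simp⟩
  | cons P L ih =>
    obtain ⟨F, hF, hF'⟩ := ih
    let _ := P.fin
    choose Fx hFx hFx' using exists_word_set P.G P.deg20 r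
    refine ⟨(Finset.univ.biUnion Fx) ∪ F, ?_, ?_⟩
    · refine (Finset.card_union_le _ _).trans ?_
      have h1 : (Finset.univ.biUnion Fx).card ≤ Fintype.card P.V * 20 ^ r := by
        refine Finset.card_biUnion_le.trans ?_
        refine (Finset.sum_le_card_nsmul _ _ _ (fun x _ => hFx x)).trans ?_
        simp [Finset.card_univ]
      have h2 : totalV (P :: L) = Fintype.card P.V + totalV L := by
        simp [totalV]
      rw [h2, add_mul]
      exact add_le_add h1 hF
    · intro P' hP' w hw hread
      rcases List.mem_cons.mp hP' with rfl | hP'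
      · obtain ⟨x, y, hxy⟩ := hread
        exact Finset.mem_union_left _ (Finset.mem_biUnion.mpr ⟨x, Finset.mem_univ _, hFx' x w y hw hxy⟩)
      · exact Finset.mem_union_right _ (hF' P' hP' w hw hread)

/-! ### The random graph on a finite quotient -/

section Quot

variable {α : Type} [DecidableEq α] {Q : Type} [Group Q] (ψ : FreeGroup α →* Q)

/-- The neighbour of `x` along a letter. -/
def stp (x : Q) (l : α × Bool) : Q := x * ψ (ltr l)

/-- The edge traversed from `x` along a letter. -/
def edg (x : Q) (l : α × Bool) : Q × α := (if l.2 then x else stp ψ x l, l.1)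

/-- The head of an edge. -/
def dstE (e : Q × α) : Q := stp ψ e.1 (e.2, true)

theorem stp_linv (x : Q) (l : α × Bool) : stp ψ (stp ψ x l) (linv l) = x := by
  simp [stp, ltr_linv, mul_assoc]

theorem stp_linv' (x : Q) (l : α × Bool) : stp ψ (stp ψ x (linv l)) l = x := by
  have := stp_linv ψ x (linv l)
  rwa [linv_linv] at this

theorem edg_symm (x : Q) (l : α × Bool) : edg ψ (stp ψ x l) (linv l) = edg ψ x l := by
  rcases l with ⟨a, b⟩
  cases b
  · simp [edg, linv]
  · have := stp_linv ψ x (a, true)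
    simp [edg, linv] at this ⊢
    exact this

theorem edg_ends (x : Q) (l : α × Bool) :
    ((edg ψ x l).1 = x ∧ dstE ψ (edg ψ x l) = stp ψ x l) ∨
      ((edg ψ x l).1 = stp ψ x l ∧ dstE ψ (edg ψ x l) = x) := by
  rcases l with ⟨a, b⟩
  cases b
  · right
    refine ⟨by simp [edg], ?_⟩
    have := stp_linv ψ x (a, false)
    simpa [edg, dstE, linv] using this
  · left
    simp [edg, dstE]

omit [DecidableEq α] in
theorem edg_inj (h1 : ∀ l : α × Bool, ψ (ltr l) ≠ 1) (x : Q) :
    Function.Injective (edg ψ x) := by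
  rintro ⟨a, b⟩ ⟨a', b'⟩ h
  have h2 : a = a' := congrArg Prod.snd h
  subst h2
  cases b <;> cases b'
  · rfl
  · exfalso
    have h3 : stp ψ x (a, false) = x := by simpa [edg] using congrArg Prod.fst h
    exact h1 (a, false) (by simpa [stp] using h3)
  · exfalso
    have h3 : x = stp ψ x (a, false) := by simpa [edg] using congrArg Prod.fst h
    exact h1 (a, false) (by simpa [stp] using h3.symm)
  · rfl

theorem mk_stp (x : Q) (l : α × Bool) (u : List (α × Bool)) :
    stp ψ x l * ψ (FreeGroup.mk u) = x * ψ (FreeGroup.mk (l :: u)) := by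
  rw [mk_cons_eq, _root_.map_mul, stp, mul_assoc]

variable [DecidableEq Q]

/-- The set of edges traversed when reading a word from `x`. -/
def trc : Q → List (α × Bool) → Finset (Q × α)
  | _, [] => ∅
  | x, l :: w => insert (edg ψ x l) (trc (stp ψ x l) w)

/-- The end points of the edges of a trace are visited vertices. -/
theorem trc_ends (w : List (α × Bool)) : ∀ (y : Q), ∀ e ∈ trc ψ y w,
    (∃ u, u <+: w ∧ e.1 = y * ψ (FreeGroup.mk u)) ∧
      (∃ u, u <+: w ∧ dstE ψ e = y * ψ (FreeGroup.mk u)) := by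
  have hnil : ∀ (y : Q) (l : α × Bool) (w : List (α × Bool)),
      ∃ u, u <+: (l :: w) ∧ y = y * ψ (FreeGroup.mk u) := by
    intro y l w
    refine ⟨[], List.nil_prefix, ?_⟩
    have : (FreeGroup.mk [] : FreeGroup α) = 1 := rfl
    simp [this]
  have hone : ∀ (y : Q) (l : α × Bool) (w : List (α × Bool)),
      ∃ u, u <+: (l :: w) ∧ stp ψ y l = y * ψ (FreeGroup.mk u) := by
    intro y l w
    refine ⟨[l], ?_, rfl⟩
    simp
  induction w with
  | nil => intro y e he; simp [trc] at he
  | cons l w ih =>
    intro y e he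
    rcases Finset.mem_insert.mp he with rfl | he
    · rcases edg_ends ψ y l with ⟨h1, h2⟩ | ⟨h1, h2⟩
      · exact ⟨by rw [h1]; exact hnil y l w, by rw [h2]; exact hone y l w⟩
      · exact ⟨by rw [h1]; exact hone y l w, by rw [h2]; exact hnil y l w⟩
    · obtain ⟨⟨u, hu, h1⟩, ⟨u', hu', h2⟩⟩ := ih _ e he
      refine ⟨⟨l :: u, ?_, ?_⟩, ⟨l :: u', ?_, ?_⟩⟩
      · simpa using hu
      · rw [h1, mk_stp]
      · simpa using hu'
      · rw [h2, mk_stp]

theorem mk_ne_one_of_reduced {v : List (α × Bool)} (hv : IsReduced v) (hne : v ≠ []) :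
    FreeGroup.mk v ≠ 1 := by
  intro h
  have h2 : (FreeGroup.mk v).toWord = v := by
    rw [FreeGroup.toWord_mk, hv.reduce_eq]
  rw [h, FreeGroup.toWord_one] at h2
  exact hne h2.symm

theorem norm_mk_of_reduced {v : List (α × Bool)} (hv : IsReduced v) :
    FreeGroup.norm (FreeGroup.mk v) = v.length := by
  rw [FreeGroup.norm, FreeGroup.toWord_mk, hv.reduce_eq]

/-- A reduced word of length at most the girth traces exactly its length many edges. -/
theorem trc_card {R : ℕ} (hg : ∀ w : FreeGroup α, w ≠ 1 → FreeGroup.norm w ≤ R → ψ w ≠ 1)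
    (w : List (α × Bool)) (hw : IsReduced w) (hlen : w.length ≤ R) :
    ∀ x : Q, (trc ψ x w).card = w.length := by
  induction w with
  | nil => intro x; simp [trc]
  | cons l w ih =>
    intro x
    have hw' : IsReduced w := isReduced_of_factor hw ⟨[l], [], by simp⟩
    have hlen' : w.length ≤ R := by
      simp only [List.length_cons] at hlen; omega
    have hnotin : edg ψ x l ∉ trc ψ (stp ψ x l) w := by
      intro hmem
      obtain ⟨⟨u, hu, h1⟩, ⟨u', hu', h2⟩⟩ := trc_ends ψ w _ _ hmem
      have key : ∃ u, u <+: w ∧ x = stp ψ x l * ψ (FreeGroup.mk u) := by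
        rcases edg_ends ψ x l with ⟨h3, _⟩ | ⟨_, h4⟩
        · exact ⟨u, hu, by rw [← h1, h3]⟩
        · exact ⟨u', hu', by rw [← h2, h4]⟩
      obtain ⟨v, hv, hx⟩ := key
      rw [mk_stp] at hx
      have hpre : (l :: v) <+: (l :: w) := by simpa using hv
      have hred : IsReduced (l :: v) := isReduced_of_factor hw hpre.isInfix
      have hne : FreeGroup.mk (l :: v) ≠ 1 := mk_ne_one_of_reduced hred (by simp)
      have hnorm : FreeGroup.norm (FreeGroup.mk (l :: v)) ≤ R := by
        rw [norm_mk_of_reduced hred]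
        exact (hpre.length_le).trans hlen
      exact hg _ hne hnorm (by simpa using hx)
    simp only [trc, List.length_cons]
    rw [Finset.card_insert_of_notMem hnotin, ih hw' hlen']

/-- The labelled graph spanned by the edges `K` on the vertices `W`. -/
def mkLG (K : Finset (Q × α)) (W : Finset Q) : LG α {x // x ∈ W} where
  E x l y := edg ψ x.1 l ∈ K ∧ y.1 = stp ψ x.1 l
  symm := by
    rintro x l y ⟨h1, h2⟩
    refine ⟨?_, ?_⟩
    · rw [h2, edg_symm]; exact h1
    · rw [h2, stp_linv]
  det := by
    rintro x l y y' ⟨_, h1⟩ ⟨_, h2⟩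
    exact Subtype.ext (h1.trans h2.symm)

theorem mkLG_trc (K : Finset (Q × α)) (W : Finset Q) {x y : {x // x ∈ W}}
    {w : List (α × Bool)} (h : (mkLG ψ K W).Read x w y) : trc ψ x.1 w ⊆ K := by
  induction w generalizing x with
  | nil => simp [trc]
  | cons l w ih =>
    obtain ⟨y', ⟨h1, h2⟩, h3⟩ := read_cons_inv h
    intro e he
    rcases Finset.mem_insert.mp he with rfl | he
    · exact h1
    · refine ih h3 ?_
      rw [h2]; exact he

end Quot

/-- Numerics of the star configurations. -/
theorem star_numeric : ((Nat.choose 240 21 : ℕ) : ℝ) * (1 / 40 : ℝ) ^ 21 ≤ 1 / 4 := by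
  have h := Nat.choose_le_pow_div (α := ℝ) 21 240
  have h2 : ((240 : ℕ) : ℝ) ^ 21 / ((Nat.factorial 21 : ℕ) : ℝ) * (1 / 40 : ℝ) ^ 21 ≤ 1 / 4 := by
    norm_num [Nat.factorial]
  refine le_trans ?_ h2
  exact mul_le_mul_of_nonneg_right h (by positivity)

/-- The core of the inductive step: a finite graph with degrees between `3` and `20` in which no
word of a given small set of reduced words of length `r` is readable. -/
theorem exists_graph_avoiding {α : Type} [Fintype α] [DecidableEq α] (hα : Fintype.card α = 120)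
    (r : ℕ) (hr0 : 0 < r) (F : Finset (List (α × Bool)))
    (hFr : (F.card : ℝ) * (1 / 40 : ℝ) ^ r ≤ 1 / 4) :
    ∃ (V : Type) (_ : Fintype V) (_ : Nonempty V) (G : LG α V),
      (∀ x, 3 ≤ (G.letters x).card) ∧ (∀ x, (G.letters x).card ≤ 20) ∧
      ∀ w ∈ F, IsReduced w → w.length = r → ∀ x y, ¬ G.Read x w y := by
  classical
  obtain ⟨Q, _, _, ψ, _, hg⟩ := exists_girth (α := α) (r + 2)
  have hl1 : ∀ l : α × Bool, ψ (ltr l) ≠ 1 := by
    intro l
    refine hg _ ?_ ?_
    · exact mk_ne_one_of_reduced IsReduced.singleton (by simp)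
    · rw [norm_ltr]; omega
  let F' := F.filter (fun w => IsReduced w ∧ w.length = r)
  let ι := (Q × F') ⊕ (Q × {S : Finset (α × Bool) // S.card = 21})
  let C : ι → Finset (Q × α) :=
    Sum.elim (fun i => trc ψ i.1 i.2.1) (fun i => i.2.1.image (edg ψ i.1))
  have hcard1 : ∀ i : Q × F', (C (Sum.inl i)).card = r := by
    rintro ⟨x, w, hw⟩
    obtain ⟨_, hw1, hw2⟩ := Finset.mem_filter.mp hw
    have := trc_card ψ hg w hw1 (by omega) x
    simpa [C, hw2] using this
  have hcard2 : ∀ i : Q × {S : Finset (α × Bool) // S.card = 21}, (C (Sum.inr i)).card = 21 := by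
    rintro ⟨x, S, hS⟩
    have := Finset.card_image_of_injective S (edg_inj ψ hl1 x)
    simpa [C, hS] using this
  have hne : ∀ i, (C i).Nonempty := by
    rintro (i | i)
    · rw [← Finset.card_pos, hcard1]; omega
    · rw [← Finset.card_pos, hcard2]; omega
  obtain ⟨K, -, hKC, hKcard⟩ := alteration (Finset.univ : Finset (Q × α)) C
    (fun _ => Finset.subset_univ _) hne (1 / 40) (by norm_num) (by norm_num)
  have hQpos : (0 : ℝ) < Fintype.card Q := by
    exact_mod_cast Fintype.card_pos
  have hsum : ∑ i, ((1 : ℝ) / 40) ^ (C i).card ≤ (Fintype.card Q : ℝ) / 2 := by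
    rw [Fintype.sum_sum_type]
    have h1 : ∑ i : Q × F', ((1 : ℝ) / 40) ^ (C (Sum.inl i)).card ≤ (Fintype.card Q : ℝ) / 4 := by
      simp_rw [hcard1]
      rw [Finset.sum_const, Finset.card_univ, Fintype.card_prod, nsmul_eq_mul]
      push_cast
      have h2 : ((Fintype.card F' : ℕ) : ℝ) * (1 / 40 : ℝ) ^ r ≤ 1 / 4 := by
        have h3 : ((Fintype.card F' : ℕ) : ℝ) ≤ (F.card : ℝ) := by
          have h4 : Fintype.card F' ≤ F.card := by
            rw [Fintype.card_coe]
            exact Finset.card_filter_le _ _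
          exact_mod_cast h4
        exact le_trans (mul_le_mul_of_nonneg_right h3 (by positivity)) hFr
      have := mul_le_mul_of_nonneg_left h2 hQpos.le
      calc (Fintype.card Q : ℝ) * (Fintype.card F' : ℝ) * (1 / 40) ^ r
          = (Fintype.card Q : ℝ) * ((Fintype.card F' : ℝ) * (1 / 40) ^ r) := by ring
        _ ≤ (Fintype.card Q : ℝ) * (1 / 4) := this
        _ = (Fintype.card Q : ℝ) / 4 := by ring
    have h2 : ∑ i : Q × {S : Finset (α × Bool) // S.card = 21},
        ((1 : ℝ) / 40) ^ (C (Sum.inr i)).card ≤ (Fintype.card Q : ℝ) / 4 := by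
      simp_rw [hcard2]
      rw [Finset.sum_const, Finset.card_univ, Fintype.card_prod, nsmul_eq_mul]
      have h3 : Fintype.card {S : Finset (α × Bool) // S.card = 21} = Nat.choose 240 21 := by
        rw [Fintype.card_finset_len, Fintype.card_prod, hα]
        simp
      rw [h3]
      push_cast
      have := mul_le_mul_of_nonneg_left star_numeric hQpos.le
      calc (Fintype.card Q : ℝ) * ((Nat.choose 240 21 : ℕ) : ℝ) * (1 / 40) ^ 21
          = (Fintype.card Q : ℝ) * (((Nat.choose 240 21 : ℕ) : ℝ) * (1 / 40) ^ 21) := by ring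
        _ ≤ (Fintype.card Q : ℝ) * (1 / 4) := this
        _ = (Fintype.card Q : ℝ) / 4 := by ring
    linarith only [h1, h2]
  have hKbig : 2 * (Finset.univ : Finset Q).card < K.card := by
    have h1 : ((Finset.univ : Finset (Q × α)).card : ℝ) = (Fintype.card Q : ℝ) * 120 := by
      rw [Finset.card_univ, Fintype.card_prod, hα]
      push_cast
      ring
    rw [h1] at hKcard
    have h2 : (2 : ℝ) * (Fintype.card Q : ℝ) < K.card := by
      linarith only [hKcard, hsum, hQpos]
    rw [Finset.card_univ]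
    exact_mod_cast h2
  obtain ⟨W, -, hWne, hW3⟩ := core_exists K Prod.fst (dstE ψ) Finset.univ
    (fun _ _ => ⟨Finset.mem_univ _, Finset.mem_univ _⟩) hKbig
  have hmem : ∀ (x : {x // x ∈ W}) (l : α × Bool),
      l ∈ (mkLG ψ K W).letters x ↔ edg ψ x.1 l ∈ K ∧ stp ψ x.1 l ∈ W := by
    intro x l
    simp only [LG.letters, Finset.mem_filter, Finset.mem_univ, true_and]
    constructor
    · rintro ⟨y, h1, h2⟩
      exact ⟨h1, h2 ▸ y.2⟩
    · rintro ⟨h1, h2⟩
      exact ⟨⟨_, h2⟩, h1, rfl⟩
  have hdeg3 : ∀ x, 3 ≤ ((mkLG ψ K W).letters x).card := by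
    intro x
    refine (hW3 x.1 x.2).trans ?_
    refine le_trans (Finset.card_le_card ?_)
      (Finset.card_image_le (s := (mkLG ψ K W).letters x) (f := edg ψ x.1))
    intro e he
    obtain ⟨heK, hsrc, hdst, hor⟩ := Finset.mem_filter.mp he
    rcases e with ⟨x', a⟩
    rcases hor with h | h
    · simp only at h hsrc
      subst h
      refine Finset.mem_image.mpr ⟨(a, true), ?_, by simp [edg]⟩
      rw [hmem]
      exact ⟨by simpa [edg] using heK, by simpa [dstE] using hdst⟩
    · have h' : stp ψ x' (a, true) = x.1 := by simpa [dstE] using h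
      have h'' : stp ψ x.1 (a, false) = x' := by
        have := stp_linv ψ x' (a, true)
        rw [h'] at this
        simpa [linv] using this
      refine Finset.mem_image.mpr ⟨(a, false), ?_, by simp [edg, h'']⟩
      rw [hmem]
      exact ⟨by simpa [edg, h''] using heK, by rw [h'']; exact hsrc⟩
  have hdeg20 : ∀ x, ((mkLG ψ K W).letters x).card ≤ 20 := by
    intro x
    by_contra hcon
    rw [not_le] at hcon
    obtain ⟨S, hS, hS21⟩ := Finset.exists_subset_card_eq (s := (mkLG ψ K W).letters x)
      (n := 21) hcon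
    refine hKC (Sum.inr (x.1, ⟨S, hS21⟩)) ?_
    intro e he
    obtain ⟨l, hl, rfl⟩ := Finset.mem_image.mp he
    exact ((hmem x l).mp (hS hl)).1
  have hnonempty : Nonempty {x // x ∈ W} := by
    obtain ⟨x, hx⟩ := hWne
    exact ⟨⟨x, hx⟩⟩
  refine ⟨{x // x ∈ W}, inferInstance, hnonempty, mkLG ψ K W, hdeg3, hdeg20, ?_⟩
  intro w hw hwred hwlen x y hread
  have hwF' : w ∈ F' := Finset.mem_filter.mpr ⟨hw, hwred, hwlen⟩
  exact hKC (Sum.inl (x.1, ⟨w, hwF'⟩)) (mkLG_trc ψ K W hread)

/-- Inductive step of the construction. -/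
theorem exists_next (L : List Piece) : ∃ (P : Piece) (r : ℕ), ∀ P' ∈ L, ¬ P.Common P' r := by
  obtain ⟨F, hFcard, hF⟩ := exists_word_set_list L (4 * totalV L + 1)
  have hr1 : 4 * totalV L ≤ 2 ^ (4 * totalV L + 1) := by
    have : 4 * totalV L + 1 < 2 ^ (4 * totalV L + 1) := Nat.lt_two_pow_self
    omega
  have hr0 : 0 < 4 * totalV L + 1 := by omega
  generalize 4 * totalV L + 1 = r at hFcard hF hr1 hr0
  generalize totalV L = A at hFcard hr1
  have hFr : (F.card : ℝ) * (1 / 40 : ℝ) ^ r ≤ 1 / 4 := by
    have h3 : (F.card : ℝ) ≤ (A : ℝ) * 20 ^ r := by exact_mod_cast hFcard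
    have h5 : (20 : ℝ) ^ r * (1 / 40) ^ r = (1 / 2) ^ r := by
      rw [← mul_pow]; norm_num
    have h6 : (4 : ℝ) * A ≤ 2 ^ r := by exact_mod_cast hr1
    calc (F.card : ℝ) * (1 / 40 : ℝ) ^ r
        ≤ ((A : ℝ) * 20 ^ r) * (1 / 40) ^ r :=
          mul_le_mul_of_nonneg_right h3 (by positivity)
      _ = (A : ℝ) * (1 / 2) ^ r := by rw [mul_assoc, h5]
      _ ≤ 1 / 4 := by
          have h7 : (2 : ℝ) ^ r * (1 / 2) ^ r = 1 := by
            rw [← mul_pow]; norm_num
          have h8 : (0 : ℝ) ≤ (1 / 2) ^ r := by positivity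
          nlinarith only [h6, h7, h8]
  have hα : Fintype.card Alph = 120 := by simp
  obtain ⟨V, hV, hne, G, h3, h20, havoid⟩ := exists_graph_avoiding hα r hr0 F hFr
  refine ⟨⟨V, hV, hne, G, h3, h20⟩, r, ?_⟩
  rintro P' hP' ⟨w, hwred, hwlen, ⟨x, y, hread⟩, hread'⟩
  exact havoid w (hF P' hP' w hwlen hread') hwred hwlen x y hread

/-- The list of the first `n` pieces, with a choice of next piece. -/
noncomputable def pieceList : ℕ → List Piece
  | 0 => []
  | n + 1 => (exists_next (pieceList n)).choose :: pieceList n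

theorem mem_pieceList {n m : ℕ} (h : m < n) :
    (exists_next (pieceList m)).choose ∈ pieceList n := by
  induction n with
  | zero => omega
  | succ n ih =>
    rcases Nat.lt_succ_iff_lt_or_eq.mp h with h1 | h1
    · exact List.mem_cons_of_mem _ (ih h1)
    · subst h1; exact List.mem_cons_self

/-- The sequence of pieces. -/
theorem exists_pieces : ∃ C : ℕ → Piece, ∀ n m, m < n → ∃ r, ¬ (C n).Common (C m) r := by
  refine ⟨fun n => (exists_next (pieceList n)).choose, ?_⟩
  intro n m h
  obtain ⟨r, hr⟩ := (exists_next (pieceList n)).choose_spec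
  exact ⟨r, hr _ (mem_pieceList h)⟩

end Vale.Agent.Lib.P090K
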