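import Vale.Agent.Lib.P090K.Windows

/-!
The weights and their Lipschitz estimates. Blueprint section 7.
-/

namespace Vale.Agent.Lib.P090K

open FreeGroup

namespace Frame

variable {α V Q : Type} [DecidableEq α] [Group Q] (F : Frame α V Q)

theorem om_nonneg (z p : V) : 0 ≤ F.om z p := clamp_nonneg _

theorem om_le_one (z p : V) : F.om z p ≤ 1 := clamp_le_one _

theorem nu_nonneg (y : V) : 0 ≤ F.nu y := clamp_nonneg _

theorem nu_le_one (y : V) : F.nu y ≤ 1 := clamp_le_one _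

theorem rho_pos : (0:ℝ) < (F.rho : ℝ) := by
  have h := F.rho_ge
  have : 0 < F.rho := by omega
  exact_mod_cast this

theorem rho_sq_pos : (0:ℝ) < (F.rho : ℝ) ^ 2 := pow_pos F.rho_pos 2

theorem om_le_aux {w r : ℝ} (hρ : 0 < r) (h : 2 * r - 1 ≤ w) : clamp (2 - w / r) ≤ 1 / r := by
  have h1 : 2 - w / r ≤ 1 / r := by
    have : 2 - w / r = (2 * r - w) / r := by
      field_simp
    rw [this]
    exact div_le_div_of_nonneg_right (by linarith) hρ.le
  by_cases h2 : 0 ≤ 2 - w / r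
  · exact (clamp_le_of_nonneg h2).trans h1
  · rw [clamp_of_nonpos (le_of_lt (not_le.mp h2))]
    positivity

theorem om_eq_one {z p : V} (h : wd F.ψ (F.τ z) (F.τ p) ≤ F.rho ^ 2) : F.om z p = 1 := by
  have hρ : (0:ℝ) < (F.rho : ℝ) ^ 2 := F.rho_sq_pos
  unfold om
  apply clamp_of_one_le
  have h' : (wd F.ψ (F.τ z) (F.τ p) : ℝ) ≤ (F.rho : ℝ) ^ 2 := by exact_mod_cast h
  have : (wd F.ψ (F.τ z) (F.τ p) : ℝ) / (F.rho : ℝ) ^ 2 ≤ 1 := (div_le_one hρ).mpr h'
  linarith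

theorem om_eq_zero_of_not_mem {z p : V} (h : p ∉ F.B z) : F.om z p = 0 := by
  have hρ : (0:ℝ) < (F.rho : ℝ) ^ 2 := F.rho_sq_pos
  unfold om
  apply clamp_of_nonpos
  have h2 : F.W0 ≤ wd F.ψ (F.τ z) (F.τ p) := not_lt.mp h
  have h' : 2 * (F.rho : ℝ) ^ 2 ≤ (wd F.ψ (F.τ z) (F.τ p) : ℝ) := by
    have : ((F.W0 : ℕ) : ℝ) ≤ (wd F.ψ (F.τ z) (F.τ p) : ℝ) := by exact_mod_cast h2
    simpa [W0] using this
  have : 2 ≤ (wd F.ψ (F.τ z) (F.τ p) : ℝ) / (F.rho : ℝ) ^ 2 := (le_div_iff₀ hρ).mpr h'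
  linarith

/-- `om` near the boundary of the window. -/
theorem om_le_of_not_mem_adj {z z' p : V} {l : α × Bool} (hE : F.G.E z l z') (h : p ∉ F.B z') :
    F.om z p ≤ 1 / (F.rho : ℝ) ^ 2 := by
  have hρ : (0:ℝ) < (F.rho : ℝ) ^ 2 := F.rho_sq_pos
  have h2 : F.W0 ≤ wd F.ψ (F.τ z') (F.τ p) := not_lt.mp h
  have h3 : wd F.ψ (F.τ z') (F.τ p) ≤ wd F.ψ (F.τ z') (F.τ z) + wd F.ψ (F.τ z) (F.τ p) :=
    wd_triangle F.ψ F.surj _ _ _
  have h4 : wd F.ψ (F.τ z') (F.τ z) ≤ 1 := by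
    rw [wd_comm F.ψ F.surj, F.τ_step hE]
    exact wd_step F.ψ _ _
  have h5 : (2 * (F.rho : ℝ) ^ 2) - 1 ≤ (wd F.ψ (F.τ z) (F.τ p) : ℝ) := by
    have h6 : F.W0 ≤ 1 + wd F.ψ (F.τ z) (F.τ p) := by omega
    have h7 : ((F.W0 : ℕ) : ℝ) ≤ 1 + (wd F.ψ (F.τ z) (F.τ p) : ℝ) := by exact_mod_cast h6
    have h8 : ((F.W0 : ℕ) : ℝ) = 2 * (F.rho : ℝ) ^ 2 := by simp [W0]
    linarith
  exact om_le_aux hρ h5

/-- `om` just outside the window. -/
theorem om_le_of_not_mem_step {z x y : V} {l : α × Bool} (hE : F.G.E x l y) (h : x ∉ F.B z) :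
    F.om z y ≤ 1 / (F.rho : ℝ) ^ 2 := by
  have hρ : (0:ℝ) < (F.rho : ℝ) ^ 2 := F.rho_sq_pos
  have h2 : F.W0 ≤ wd F.ψ (F.τ z) (F.τ x) := not_lt.mp h
  have h3 : wd F.ψ (F.τ z) (F.τ x) ≤ wd F.ψ (F.τ z) (F.τ y) + wd F.ψ (F.τ y) (F.τ x) :=
    wd_triangle F.ψ F.surj _ _ _
  have h4 : wd F.ψ (F.τ y) (F.τ x) ≤ 1 := by
    rw [wd_comm F.ψ F.surj, F.τ_step hE]
    exact wd_step F.ψ _ _
  have h5 : (2 * (F.rho : ℝ) ^ 2) - 1 ≤ (wd F.ψ (F.τ z) (F.τ y) : ℝ) := by
    have h6 : F.W0 ≤ wd F.ψ (F.τ z) (F.τ y) + 1 := by omega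
    have h7 : ((F.W0 : ℕ) : ℝ) ≤ (wd F.ψ (F.τ z) (F.τ y) : ℝ) + 1 := by exact_mod_cast h6
    have h8 : ((F.W0 : ℕ) : ℝ) = 2 * (F.rho : ℝ) ^ 2 := by simp [W0]
    linarith
  exact om_le_aux hρ h5

theorem abs_om_sub_second (z p q : V) :
    |F.om z p - F.om z q| ≤ (wd F.ψ (F.τ p) (F.τ q) : ℝ) / (F.rho : ℝ) ^ 2 := by
  have hρ : (0:ℝ) < (F.rho : ℝ) ^ 2 := F.rho_sq_pos
  unfold om
  refine (abs_clamp_sub_le _ _).trans ?_
  have e : (2 - (wd F.ψ (F.τ z) (F.τ p) : ℝ) / (F.rho : ℝ) ^ 2) -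
      (2 - (wd F.ψ (F.τ z) (F.τ q) : ℝ) / (F.rho : ℝ) ^ 2) =
      ((wd F.ψ (F.τ z) (F.τ q) : ℝ) - (wd F.ψ (F.τ z) (F.τ p) : ℝ)) / (F.rho : ℝ) ^ 2 := by ring
  rw [e, abs_div, abs_of_pos hρ]
  refine div_le_div_of_nonneg_right ?_ hρ.le
  have h1 : wd F.ψ (F.τ z) (F.τ q) ≤ wd F.ψ (F.τ z) (F.τ p) + wd F.ψ (F.τ p) (F.τ q) :=
    wd_triangle F.ψ F.surj _ _ _
  have h2 : wd F.ψ (F.τ z) (F.τ p) ≤ wd F.ψ (F.τ z) (F.τ q) + wd F.ψ (F.τ q) (F.τ p) :=
    wd_triangle F.ψ F.surj _ _ _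
  rw [wd_comm F.ψ F.surj (F.τ q) (F.τ p)] at h2
  have h1' : (wd F.ψ (F.τ z) (F.τ q) : ℝ) ≤ wd F.ψ (F.τ z) (F.τ p) + wd F.ψ (F.τ p) (F.τ q) := by
    exact_mod_cast h1
  have h2' : (wd F.ψ (F.τ z) (F.τ p) : ℝ) ≤ wd F.ψ (F.τ z) (F.τ q) + wd F.ψ (F.τ p) (F.τ q) := by
    exact_mod_cast h2
  rw [abs_le]
  constructor <;> linarith

theorem abs_om_sub_first {z z' : V} {l : α × Bool} (hE : F.G.E z l z') (p : V) :
    |F.om z p - F.om z' p| ≤ 1 / (F.rho : ℝ) ^ 2 := by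
  have hρ : (0:ℝ) < (F.rho : ℝ) ^ 2 := F.rho_sq_pos
  unfold om
  refine (abs_clamp_sub_le _ _).trans ?_
  have e : (2 - (wd F.ψ (F.τ z) (F.τ p) : ℝ) / (F.rho : ℝ) ^ 2) -
      (2 - (wd F.ψ (F.τ z') (F.τ p) : ℝ) / (F.rho : ℝ) ^ 2) =
      ((wd F.ψ (F.τ z') (F.τ p) : ℝ) - (wd F.ψ (F.τ z) (F.τ p) : ℝ)) / (F.rho : ℝ) ^ 2 := by ring
  rw [e, abs_div, abs_of_pos hρ]
  refine div_le_div_of_nonneg_right ?_ hρ.le
  have h0 : wd F.ψ (F.τ z) (F.τ z') ≤ 1 := by
    rw [F.τ_step hE]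
    exact wd_step F.ψ _ _
  have h1 : wd F.ψ (F.τ z') (F.τ p) ≤ wd F.ψ (F.τ z') (F.τ z) + wd F.ψ (F.τ z) (F.τ p) :=
    wd_triangle F.ψ F.surj _ _ _
  have h2 : wd F.ψ (F.τ z) (F.τ p) ≤ wd F.ψ (F.τ z) (F.τ z') + wd F.ψ (F.τ z') (F.τ p) :=
    wd_triangle F.ψ F.surj _ _ _
  rw [wd_comm F.ψ F.surj (F.τ z') (F.τ z)] at h1
  have h1' : (wd F.ψ (F.τ z') (F.τ p) : ℝ) ≤ 1 + wd F.ψ (F.τ z) (F.τ p) := by
    have : wd F.ψ (F.τ z') (F.τ p) ≤ 1 + wd F.ψ (F.τ z) (F.τ p) := by omega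
    exact_mod_cast this
  have h2' : (wd F.ψ (F.τ z) (F.τ p) : ℝ) ≤ 1 + wd F.ψ (F.τ z') (F.τ p) := by
    have : wd F.ψ (F.τ z) (F.τ p) ≤ 1 + wd F.ψ (F.τ z') (F.τ p) := by omega
    exact_mod_cast this
  rw [abs_le]
  constructor <;> linarith

theorem abs_nu_sub {x y : V} {l : α × Bool} (hE : F.G.E x l y) :
    |F.nu x - F.nu y| ≤ 16 / (F.rho : ℝ) := by
  have hρ : (0:ℝ) < (F.rho : ℝ) := F.rho_pos
  unfold nu
  refine (abs_clamp_sub_le _ _).trans ?_
  have e : (2 - 16 * (F.s x : ℝ) / (F.rho : ℝ)) - (2 - 16 * (F.s y : ℝ) / (F.rho : ℝ)) =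
      16 * ((F.s y : ℝ) - (F.s x : ℝ)) / (F.rho : ℝ) := by ring
  rw [e, abs_div, abs_of_pos hρ]
  refine div_le_div_of_nonneg_right ?_ hρ.le
  have h1 : (F.s y : ℝ) ≤ F.s x + 1 := by exact_mod_cast F.s_step hE
  have h2 : (F.s x : ℝ) ≤ F.s y + 1 := by exact_mod_cast F.s_step (F.G.symm hE)
  rw [abs_le]
  constructor <;> linarith

/-- `nu` is `1` at hubs and when `16 s ≤ rho`, and `0` when `8 s ≥ rho`. -/
theorem nu_hub (x : V) : F.nu (F.hub x) = 1 := by
  unfold nu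
  rw [F.s_hub]
  apply clamp_of_one_le
  simp

theorem nu_eq_one {x : V} (h : 16 * F.s x ≤ F.rho) : F.nu x = 1 := by
  have hρ : (0:ℝ) < (F.rho : ℝ) := F.rho_pos
  unfold nu
  apply clamp_of_one_le
  have h' : 16 * (F.s x : ℝ) ≤ (F.rho : ℝ) := by exact_mod_cast h
  have : 16 * (F.s x : ℝ) / (F.rho : ℝ) ≤ 1 := (div_le_one hρ).mpr h'
  linarith

theorem nu_eq_zero {x : V} (h : F.rho ≤ 8 * F.s x) : F.nu x = 0 := by
  have hρ : (0:ℝ) < (F.rho : ℝ) := F.rho_pos
  unfold nu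
  apply clamp_of_nonpos
  have h' : (F.rho : ℝ) ≤ 8 * (F.s x : ℝ) := by exact_mod_cast h
  have : 2 ≤ 16 * (F.s x : ℝ) / (F.rho : ℝ) := by
    rw [le_div_iff₀ hρ]
    linarith
  linarith

/-- Edge step of the window cut-off. -/
theorem abs_om_sub_edge (z : V) {x y : V} {l : α × Bool} (hE : F.G.E x l y) :
    |F.om z x - F.om z y| ≤ 1 / (F.rho : ℝ) ^ 2 := by
  refine (F.abs_om_sub_second z x y).trans ?_
  have h1 : wd F.ψ (F.τ x) (F.τ y) ≤ 1 := by
    rw [F.τ_step hE]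
    exact wd_step F.ψ _ _
  have h2 : ((wd F.ψ (F.τ x) (F.τ y) : ℕ) : ℝ) ≤ 1 := by exact_mod_cast h1
  have h3 : (0 : ℝ) < (F.rho : ℝ) ^ 2 := by
    have : (100 : ℝ) ≤ (F.rho : ℝ) := by exact_mod_cast F.rho_ge
    positivity
  exact div_le_div_of_nonneg_right h2 h3.le

theorem rho_pos_real : (100 : ℝ) ≤ (F.rho : ℝ) := by exact_mod_cast F.rho_ge

/-- The difference of `om` between a point and its hub. -/
theorem abs_om_sub_hub (z x : V) :
    |F.om z x - F.om z (F.hub x)| ≤ (F.s x : ℝ) / (F.rho : ℝ) ^ 2 := by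
  refine (F.abs_om_sub_second z x (F.hub x)).trans ?_
  have h2 : ((wd F.ψ (F.τ x) (F.τ (F.hub x)) : ℕ) : ℝ) ≤ (F.s x : ℝ) := by
    exact_mod_cast F.s_dist x
  have h3 : (0 : ℝ) < (F.rho : ℝ) ^ 2 := by
    have := F.rho_pos_real
    positivity
  exact div_le_div_of_nonneg_right h2 h3.le

theorem s_lt_of_nu_ne {x : V} (h : F.nu x ≠ 0) : 8 * F.s x < F.rho := by
  by_contra hc
  exact h (F.nu_eq_zero (not_lt.mp hc))

/-- A weighted mean of numbers bounded by one is bounded by one. -/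
private theorem abs_mean_le {n a b : ℝ} (h0 : 0 ≤ n) (h1 : n ≤ 1) (ha : |a| ≤ 1) (hb : |b| ≤ 1) :
    |n * a + (1 - n) * b| ≤ 1 := by
  have ha' := abs_le.mp ha
  have hb' := abs_le.mp hb
  have h2 : 0 ≤ 1 - n := by linarith
  rw [abs_le]
  constructor
  · nlinarith [mul_le_mul_of_nonneg_left ha'.1 h0, mul_le_mul_of_nonneg_left hb'.1 h2]
  · nlinarith [mul_le_mul_of_nonneg_left ha'.2 h0, mul_le_mul_of_nonneg_left hb'.2 h2]

private theorem abs_om_mul_le (z p : V) {e : ℝ} (he : |e| ≤ 1) : |F.om z p * e| ≤ 1 := by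
  rw [abs_mul, abs_of_nonneg (F.om_nonneg z p)]
  calc F.om z p * |e| ≤ 1 * 1 := mul_le_mul (F.om_le_one z p) he (abs_nonneg _) zero_le_one
    _ = 1 := one_mul _

/-- First term of the signed weight: the change along an edge. -/
private theorem gSigned_first (z : V) (ε : Set V → ℝ) (hε : ∀ D, |ε D| ≤ 1) {x y : V}
    {l : α × Bool} (hE : F.G.E x l y) :
    |F.nu x * (F.om z (F.hub x) * ε (F.comp z (F.hub x)))
      - F.nu y * (F.om z (F.hub y) * ε (F.comp z (F.hub y)))| ≤ 16 / (F.rho : ℝ) := by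
  have hnu := F.abs_nu_sub hE
  have hA : ∀ w, |F.om z (F.hub w) * ε (F.comp z (F.hub w))| ≤ 1 :=
    fun w => F.abs_om_mul_le z _ (hε _)
  by_cases hx : F.nu x = 0
  · rw [hx] at hnu ⊢
    rw [zero_mul, zero_sub, abs_neg, abs_mul]
    rw [zero_sub, abs_neg] at hnu
    calc |F.nu y| * |F.om z (F.hub y) * ε (F.comp z (F.hub y))| ≤ |F.nu y| * 1 :=
          mul_le_mul_of_nonneg_left (hA y) (abs_nonneg _)
      _ ≤ 16 / (F.rho : ℝ) := by rw [mul_one]; exact hnu
  by_cases hy : F.nu y = 0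
  · rw [hy] at hnu ⊢
    rw [zero_mul, sub_zero, abs_mul]
    rw [sub_zero] at hnu
    calc |F.nu x| * |F.om z (F.hub x) * ε (F.comp z (F.hub x))| ≤ |F.nu x| * 1 :=
          mul_le_mul_of_nonneg_left (hA x) (abs_nonneg _)
      _ ≤ 16 / (F.rho : ℝ) := by rw [mul_one]; exact hnu
  have hh : F.hub x = F.hub y := F.hub_step hE (F.s_lt_of_nu_ne hx) (F.s_lt_of_nu_ne hy)
  rw [← hh, ← sub_mul, abs_mul]
  calc |F.nu x - F.nu y| * |F.om z (F.hub x) * ε (F.comp z (F.hub x))|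
      ≤ |F.nu x - F.nu y| * 1 := mul_le_mul_of_nonneg_left (hA x) (abs_nonneg _)
    _ ≤ 16 / (F.rho : ℝ) := by rw [mul_one]; exact hnu

/-- The local term of the signed weight along an edge. -/
private theorem gSigned_local (z : V) (ε : Set V → ℝ) (hε : ∀ D, |ε D| ≤ 1) {x y : V}
    {l : α × Bool} (hE : F.G.E x l y) :
    |F.om z x * ε (F.comp z x) - F.om z y * ε (F.comp z y)| ≤ 1 / (F.rho : ℝ) ^ 2 := by
  by_cases hx : x ∈ F.B z
  · by_cases hy : y ∈ F.B z
    · rw [← F.comp_eq_of_step hx hy hE, ← sub_mul, abs_mul]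
      calc |F.om z x - F.om z y| * |ε (F.comp z x)| ≤ (1 / (F.rho : ℝ) ^ 2) * 1 :=
            mul_le_mul (F.abs_om_sub_edge z hE) (hε _) (abs_nonneg _) (by positivity)
        _ = 1 / (F.rho : ℝ) ^ 2 := mul_one _
    · rw [F.om_eq_zero_of_not_mem hy, zero_mul, sub_zero, abs_mul, abs_of_nonneg (F.om_nonneg _ _)]
      calc F.om z x * |ε (F.comp z x)| ≤ (1 / (F.rho : ℝ) ^ 2) * 1 :=
            mul_le_mul (F.om_le_of_not_mem_step (F.G.symm hE) hy) (hε _) (abs_nonneg _)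
              (by positivity)
        _ = 1 / (F.rho : ℝ) ^ 2 := mul_one _
  · rw [F.om_eq_zero_of_not_mem hx, zero_mul, zero_sub, abs_neg, abs_mul,
      abs_of_nonneg (F.om_nonneg _ _)]
    calc F.om z y * |ε (F.comp z y)| ≤ (1 / (F.rho : ℝ) ^ 2) * 1 :=
          mul_le_mul (F.om_le_of_not_mem_step hE hx) (hε _) (abs_nonneg _) (by positivity)
      _ = 1 / (F.rho : ℝ) ^ 2 := mul_one _

/-- Signed weights are admissible with constant `33 / rho`. -/
theorem adm_gSigned (z : V) (ε : Set V → ℝ) (hε : ∀ D, |ε D| ≤ 1) :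
    F.Adm (33 / (F.rho : ℝ)) (F.gSigned z ε) := by
  have hρ := F.rho_pos_real
  have hρ0 : (0 : ℝ) < (F.rho : ℝ) := by linarith
  have hbd : ∀ y, |F.gSigned z ε y| ≤ 1 := fun y =>
    abs_mean_le (F.nu_nonneg y) (F.nu_le_one y) (F.abs_om_mul_le z _ (hε _))
      (F.abs_om_mul_le z _ (hε _))
  refine ⟨hbd, ?_, ?_⟩
  · intro x l y hE
    have h1 := F.gSigned_first z ε hε hE
    have h2 := F.gSigned_local z ε hε hE
    have h3 := F.abs_nu_sub hE
    have hb : |F.om z y * ε (F.comp z y)| ≤ 1 := F.abs_om_mul_le z _ (hε _)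
    have hn0 : 0 ≤ 1 - F.nu x := by linarith [F.nu_le_one x]
    have hn1 : 1 - F.nu x ≤ 1 := by linarith [F.nu_nonneg x]
    have e : F.gSigned z ε x - F.gSigned z ε y =
        (F.nu x * (F.om z (F.hub x) * ε (F.comp z (F.hub x)))
          - F.nu y * (F.om z (F.hub y) * ε (F.comp z (F.hub y))))
        + (1 - F.nu x) * (F.om z x * ε (F.comp z x) - F.om z y * ε (F.comp z y))
        + (F.nu y - F.nu x) * (F.om z y * ε (F.comp z y)) := by
      simp only [gSigned]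
      ring
    rw [e]
    have t2 : |(1 - F.nu x) * (F.om z x * ε (F.comp z x) - F.om z y * ε (F.comp z y))|
        ≤ 1 / (F.rho : ℝ) ^ 2 := by
      rw [abs_mul, abs_of_nonneg hn0]
      calc (1 - F.nu x) * |F.om z x * ε (F.comp z x) - F.om z y * ε (F.comp z y)|
          ≤ 1 * (1 / (F.rho : ℝ) ^ 2) := mul_le_mul hn1 h2 (abs_nonneg _) zero_le_one
        _ = 1 / (F.rho : ℝ) ^ 2 := one_mul _
    have t3 : |(F.nu y - F.nu x) * (F.om z y * ε (F.comp z y))| ≤ 16 / (F.rho : ℝ) := by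
      rw [abs_mul, abs_sub_comm]
      calc |F.nu x - F.nu y| * |F.om z y * ε (F.comp z y)| ≤ (16 / (F.rho : ℝ)) * 1 :=
            mul_le_mul h3 hb (abs_nonneg _) (by positivity)
        _ = 16 / (F.rho : ℝ) := mul_one _
    have h4 : 1 / (F.rho : ℝ) ^ 2 ≤ 1 / (F.rho : ℝ) := by
      apply one_div_le_one_div_of_le hρ0
      nlinarith
    have h5 : 33 / (F.rho : ℝ) = 16 / (F.rho : ℝ) + 1 / (F.rho : ℝ) + 16 / (F.rho : ℝ) := by ring
    rw [h5]
    refine (abs_add_three _ _ _).trans ?_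
    linarith
  · intro x
    by_cases hs : 16 * F.s x ≤ F.rho
    · have e1 : F.nu x = 1 := F.nu_eq_one hs
      have e2 : F.nu (F.hub x) = 1 := F.nu_hub x
      have e : F.gSigned z ε x = F.gSigned z ε (F.hub x) := by
        simp only [gSigned, e1, e2, F.hub_hub]
        ring
      rw [e, sub_self, abs_zero]
      positivity
    · have hs' : (F.rho : ℝ) < 16 * (F.s x : ℝ) := by
        exact_mod_cast not_le.mp hs
      have h1 : 2 ≤ 33 / (F.rho : ℝ) * (F.s x : ℝ) := by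
        rw [div_mul_eq_mul_div, le_div_iff₀ hρ0]
        nlinarith
      calc |F.gSigned z ε x - F.gSigned z ε (F.hub x)|
          ≤ |F.gSigned z ε x| + |F.gSigned z ε (F.hub x)| := abs_sub _ _
        _ ≤ 1 + 1 := add_le_add (hbd _) (hbd _)
        _ = 2 := by norm_num
        _ ≤ _ := h1

/-- The total weight is admissible with constant `4 / rho^2`. -/
theorem adm_phi (z : V) : F.Adm (4 / (F.rho : ℝ) ^ 2) (F.phi z) := by
  have hρ := F.rho_pos_real
  have hρ0 : (0 : ℝ) < (F.rho : ℝ) := by linarith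
  have hS : (0 : ℝ) < (F.rho : ℝ) ^ 2 := by positivity
  have hbd : ∀ y, |F.phi z y| ≤ 1 := by
    intro y
    refine abs_mean_le (F.nu_nonneg y) (F.nu_le_one y) ?_ ?_
    · rw [abs_of_nonneg (F.om_nonneg _ _)]
      exact F.om_le_one _ _
    · rw [abs_of_nonneg (F.om_nonneg _ _)]
      exact F.om_le_one _ _
  have hexp : ∀ y, F.phi z y = F.om z y + F.nu y * (F.om z (F.hub y) - F.om z y) := by
    intro y
    simp only [phi]
    ring
  -- bound on `nu * e` when the partner `nu` vanishes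
  have hkill : ∀ {a b : V}, F.nu a = 0 → |F.nu a - F.nu b| ≤ 16 / (F.rho : ℝ) →
      |F.nu b * (F.om z (F.hub b) - F.om z b)| ≤ 2 / (F.rho : ℝ) ^ 2 := by
    intro a b ha hab
    by_cases hb : F.nu b = 0
    · rw [hb, zero_mul, abs_zero]
      positivity
    have h8 : ((8 * F.s b : ℕ) : ℝ) < (F.rho : ℝ) := by exact_mod_cast F.s_lt_of_nu_ne hb
    push_cast at h8
    have he : |F.om z (F.hub b) - F.om z b| ≤ (F.s b : ℝ) / (F.rho : ℝ) ^ 2 := by
      rw [abs_sub_comm]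
      exact F.abs_om_sub_hub z b
    rw [ha, zero_sub, abs_neg] at hab
    rw [abs_mul]
    calc |F.nu b| * |F.om z (F.hub b) - F.om z b|
        ≤ (16 / (F.rho : ℝ)) * ((F.s b : ℝ) / (F.rho : ℝ) ^ 2) :=
          mul_le_mul hab he (abs_nonneg _) (by positivity)
      _ ≤ 2 / (F.rho : ℝ) ^ 2 := by
          rw [div_mul_div_comm, div_le_div_iff₀ (by positivity) hS]
          have : (16 : ℝ) * (F.s b : ℝ) ≤ 2 * (F.rho : ℝ) := by linarith
          have h2 : (0 : ℝ) < (F.rho : ℝ) ^ 2 := hS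
          nlinarith [mul_le_mul_of_nonneg_right this h2.le]
  refine ⟨hbd, ?_, ?_⟩
  · intro x l y hE
    have h1 := F.abs_om_sub_edge z hE
    have h3 := F.abs_nu_sub hE
    have hmid : |F.nu x * (F.om z (F.hub x) - F.om z x) - F.nu y * (F.om z (F.hub y) - F.om z y)|
        ≤ 3 / (F.rho : ℝ) ^ 2 := by
      by_cases hx : F.nu x = 0
      · have := hkill hx h3
        rw [hx, zero_mul, zero_sub, abs_neg]
        refine this.trans ?_
        apply div_le_div_of_nonneg_right _ hS.le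
        norm_num
      by_cases hy : F.nu y = 0
      · have := hkill hy (by rw [abs_sub_comm]; exact h3)
        rw [hy, zero_mul, sub_zero]
        refine this.trans ?_
        apply div_le_div_of_nonneg_right _ hS.le
        norm_num
      have hh : F.hub x = F.hub y := F.hub_step hE (F.s_lt_of_nu_ne hx) (F.s_lt_of_nu_ne hy)
      have e : F.nu x * (F.om z (F.hub x) - F.om z x) - F.nu y * (F.om z (F.hub y) - F.om z y)
          = (F.nu x - F.nu y) * (F.om z (F.hub x) - F.om z x)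
            + F.nu y * (F.om z y - F.om z x) := by
        rw [← hh]
        ring
      rw [e]
      have h8 : ((8 * F.s x : ℕ) : ℝ) < (F.rho : ℝ) := by exact_mod_cast F.s_lt_of_nu_ne hx
      push_cast at h8
      have he : |F.om z (F.hub x) - F.om z x| ≤ (F.s x : ℝ) / (F.rho : ℝ) ^ 2 := by
        rw [abs_sub_comm]
        exact F.abs_om_sub_hub z x
      have t1 : |(F.nu x - F.nu y) * (F.om z (F.hub x) - F.om z x)| ≤ 2 / (F.rho : ℝ) ^ 2 := by
        rw [abs_mul]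
        calc |F.nu x - F.nu y| * |F.om z (F.hub x) - F.om z x|
            ≤ (16 / (F.rho : ℝ)) * ((F.s x : ℝ) / (F.rho : ℝ) ^ 2) :=
              mul_le_mul h3 he (abs_nonneg _) (by positivity)
          _ ≤ 2 / (F.rho : ℝ) ^ 2 := by
              rw [div_mul_div_comm, div_le_div_iff₀ (by positivity) hS]
              have : (16 : ℝ) * (F.s x : ℝ) ≤ 2 * (F.rho : ℝ) := by linarith
              have h2 : (0 : ℝ) < (F.rho : ℝ) ^ 2 := hS
              nlinarith [mul_le_mul_of_nonneg_right this h2.le]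
      have t2 : |F.nu y * (F.om z y - F.om z x)| ≤ 1 / (F.rho : ℝ) ^ 2 := by
        rw [abs_mul, abs_of_nonneg (F.nu_nonneg y), abs_sub_comm]
        calc F.nu y * |F.om z x - F.om z y| ≤ 1 * (1 / (F.rho : ℝ) ^ 2) :=
              mul_le_mul (F.nu_le_one y) h1 (abs_nonneg _) zero_le_one
          _ = 1 / (F.rho : ℝ) ^ 2 := one_mul _
      refine (abs_add_le _ _).trans ?_
      have e3 : 3 / (F.rho : ℝ) ^ 2 = 2 / (F.rho : ℝ) ^ 2 + 1 / (F.rho : ℝ) ^ 2 := by ring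
      rw [e3]
      exact add_le_add t1 t2
    rw [hexp x, hexp y]
    have e : F.om z x + F.nu x * (F.om z (F.hub x) - F.om z x)
        - (F.om z y + F.nu y * (F.om z (F.hub y) - F.om z y))
        = (F.om z x - F.om z y)
          + (F.nu x * (F.om z (F.hub x) - F.om z x) - F.nu y * (F.om z (F.hub y) - F.om z y)) := by
      ring
    rw [e]
    refine (abs_add_le _ _).trans ?_
    have e4 : 4 / (F.rho : ℝ) ^ 2 = 1 / (F.rho : ℝ) ^ 2 + 3 / (F.rho : ℝ) ^ 2 := by ring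
    rw [e4]
    exact add_le_add h1 hmid
  · intro x
    have e2 : F.nu (F.hub x) = 1 := F.nu_hub x
    have e : F.phi z x - F.phi z (F.hub x) = (1 - F.nu x) * (F.om z x - F.om z (F.hub x)) := by
      simp only [phi, e2, F.hub_hub]
      ring
    rw [e, abs_mul, abs_of_nonneg (by linarith [F.nu_le_one x] : (0 : ℝ) ≤ 1 - F.nu x)]
    have h1 := F.abs_om_sub_hub z x
    have hn1 : 1 - F.nu x ≤ 1 := by linarith [F.nu_nonneg x]
    calc (1 - F.nu x) * |F.om z x - F.om z (F.hub x)|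
        ≤ 1 * ((F.s x : ℝ) / (F.rho : ℝ) ^ 2) := mul_le_mul hn1 h1 (abs_nonneg _) zero_le_one
      _ = (F.s x : ℝ) / (F.rho : ℝ) ^ 2 := one_mul _
      _ ≤ 4 / (F.rho : ℝ) ^ 2 * (F.s x : ℝ) := by
          have : (0 : ℝ) ≤ (F.s x : ℝ) := Nat.cast_nonneg _
          rw [div_mul_eq_mul_div]
          apply div_le_div_of_nonneg_right _ hS.le
          linarith

theorem phi_hub (z : V) : F.phi z (F.hub z) = 1 := by
  unfold phi
  rw [F.nu_hub, F.hub_hub]
  have h1 : F.om z (F.hub z) = 1 := by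
    apply F.om_eq_one
    have h2 := F.s_dist z
    have h3 := F.s_le z
    have h4 : F.rho ≤ F.rho ^ 2 := Nat.le_self_pow (by norm_num) _
    omega
  rw [h1]
  ring

open Classical in
/-- The partner of `D` among a finite set of states (`∅` when there is none). -/
noncomputable def partner (J' : Finset (Set V)) (D : Set V) : Set V :=
  if h : ∃ D' ∈ J', (D ∩ D').Nonempty then h.choose else ∅

/-- The weight at the empty state vanishes. -/
theorem Wt_empty (z y : V) : F.Wt z ∅ y = 0 := by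
  classical
  unfold Wt
  have key : ∀ p : V, F.om z p * (if (∅ : Set V) = F.comp z p then 1 else 0) = 0 := by
    intro p
    by_cases h : (∅ : Set V) = F.comp z p
    · have hp : p ∉ F.B z := by
        intro hB
        have := F.mem_comp_self hB
        rw [← h] at this
        exact this
      rw [F.om_eq_zero_of_not_mem hp, zero_mul]
    · rw [if_neg h, mul_zero]
  rw [key, key]
  ring

private theorem partner_eq {z z' : V} {l : α × Bool} (hE : F.G.E z l z') (J' : Finset (Set V))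
    (hJ' : ∀ D ∈ J', ∃ q, D = F.comp z' q) {D D' : Set V} (hD : ∃ q, D = F.comp z q)
    (hD' : D' ∈ J') (h : (D ∩ D').Nonempty) : partner J' D = D' := by
  classical
  have hex : ∃ D' ∈ J', (D ∩ D').Nonempty := ⟨D', hD', h⟩
  unfold partner
  rw [dif_pos hex]
  obtain ⟨h1, h2⟩ := hex.choose_spec
  exact F.partner_unique hE hD (hJ' _ h1) (hJ' _ hD') h2 h

private theorem inter_of_partner_eq (J' : Finset (Set V)) {D D' : Set V}
    (hne : D'.Nonempty) (h : partner J' D = D') : (D ∩ D').Nonempty := by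
  classical
  unfold partner at h
  by_cases hex : ∃ D' ∈ J', (D ∩ D').Nonempty
  · rw [dif_pos hex] at h
    rw [← h]
    exact hex.choose_spec.2
  · rw [dif_neg hex] at h
    rw [← h] at hne
    simp at hne

/-- Two states with the same (nonempty) partner coincide. -/
private theorem partner_inj {z z' : V} {l : α × Bool} (hE : F.G.E z l z')
    {D₁ D₂ : Set V} (hD₁ : ∃ q, D₁ = F.comp z q) (hD₂ : ∃ q, D₂ = F.comp z q) {p : V}
    (h₁ : (D₁ ∩ F.comp z' p).Nonempty) (h₂ : (D₂ ∩ F.comp z' p).Nonempty) :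
    D₁ = D₂ := by
  have hE' := F.G.symm hE
  refine F.partner_unique hE' (D := F.comp z' p) ⟨p, rfl⟩ hD₁ hD₂ ?_ ?_
  · rwa [Set.inter_comm]
  · rwa [Set.inter_comm]

open Classical in
/-- The matching estimate for a single point. -/
private theorem matching_point {z z' : V} {l : α × Bool} (hE : F.G.E z l z')
    (J J' : Finset (Set V)) (hJ : ∀ D ∈ J, ∃ q, D = F.comp z q)
    (hJ' : ∀ D ∈ J', ∃ q, D = F.comp z' q) (p : V)
    (hp1 : p ∈ F.B z → F.comp z p ∈ J) (hp2 : p ∈ F.B z' → F.comp z' p ∈ J') :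
    ∑ D ∈ J, |F.om z p * (if D = F.comp z p then 1 else 0) -
      F.om z' p * (if partner J' D = F.comp z' p then 1 else 0)| ≤ 1 / (F.rho : ℝ) ^ 2 := by
  have hS : (0 : ℝ) ≤ 1 / (F.rho : ℝ) ^ 2 := by positivity
  have hE' := F.G.symm hE
  by_cases hpz : p ∈ F.B z
  · have hD₀ := hp1 hpz
    rw [Finset.sum_eq_single_of_mem _ hD₀]
    · rw [if_pos rfl, mul_one]
      by_cases hpz' : p ∈ F.B z'
      · have hpart : partner J' (F.comp z p) = F.comp z' p :=
          F.partner_eq hE J' hJ' ⟨p, rfl⟩ (hp2 hpz') ⟨p, F.mem_comp_self hpz, F.mem_comp_self hpz'⟩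
        rw [if_pos hpart, mul_one]
        exact F.abs_om_sub_first hE p
      · rw [F.om_eq_zero_of_not_mem hpz', zero_mul, sub_zero, abs_of_nonneg (F.om_nonneg _ _)]
        exact F.om_le_of_not_mem_adj hE hpz'
    · intro D hD hne
      rw [if_neg hne, mul_zero, zero_sub, abs_neg]
      by_cases hpz' : p ∈ F.B z'
      · have : partner J' D ≠ F.comp z' p := by
          intro hpart
          apply hne
          exact F.partner_inj hE (hJ D hD) ⟨p, rfl⟩
            (inter_of_partner_eq J' ⟨p, F.mem_comp_self hpz'⟩ hpart)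
            ⟨p, F.mem_comp_self hpz, F.mem_comp_self hpz'⟩
        rw [if_neg this, mul_zero, abs_zero]
      · rw [F.om_eq_zero_of_not_mem hpz', zero_mul, abs_zero]
  · rw [F.om_eq_zero_of_not_mem hpz]
    simp only [zero_mul, zero_sub, abs_neg]
    by_cases hpz' : p ∈ F.B z'
    · by_cases hex : ∃ D₁ ∈ J, partner J' D₁ = F.comp z' p
      · obtain ⟨D₁, hD₁, hpart⟩ := hex
        rw [Finset.sum_eq_single_of_mem _ hD₁]
        · rw [if_pos hpart, mul_one, abs_of_nonneg (F.om_nonneg _ _)]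
          exact F.om_le_of_not_mem_adj hE' hpz
        · intro D hD hne
          have : partner J' D ≠ F.comp z' p := by
            intro hpart'
            apply hne
            exact F.partner_inj hE (hJ D hD) (hJ D₁ hD₁)
              (inter_of_partner_eq J' ⟨p, F.mem_comp_self hpz'⟩ hpart')
              (inter_of_partner_eq J' ⟨p, F.mem_comp_self hpz'⟩ hpart)
          rw [if_neg this, mul_zero, abs_zero]
      · push Not at hex
        have : ∀ D ∈ J, |F.om z' p * (if partner J' D = F.comp z' p then (1 : ℝ) else 0)| = 0 := by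
          intro D hD
          rw [if_neg (hex D hD), mul_zero, abs_zero]
        rw [Finset.sum_eq_zero this]
        exact hS
    · have : ∀ D ∈ J, |F.om z' p * (if partner J' D = F.comp z' p then (1 : ℝ) else 0)| = 0 := by
        intro D _
        rw [F.om_eq_zero_of_not_mem hpz', zero_mul, abs_zero]
      rw [Finset.sum_eq_zero this]
      exact hS

/-- Matching estimate, pointwise in `y`. -/
theorem matching_pointwise {z z' : V} {l : α × Bool} (hE : F.G.E z l z')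
    (J J' : Finset (Set V)) (hJ : ∀ D ∈ J, ∃ q, D = F.comp z q)
    (hJ' : ∀ D ∈ J', ∃ q, D = F.comp z' q) (y : V)
    (hy1 : y ∈ F.B z → F.comp z y ∈ J) (hy2 : F.hub y ∈ F.B z → F.comp z (F.hub y) ∈ J)
    (hy1' : y ∈ F.B z' → F.comp z' y ∈ J') (hy2' : F.hub y ∈ F.B z' → F.comp z' (F.hub y) ∈ J') :
    ∑ D ∈ J, |F.Wt z D y - F.Wt z' (partner J' D) y| ≤ 1 / (F.rho : ℝ) ^ 2 := by
  classical
  have h1 := F.matching_point hE J J' hJ hJ' (F.hub y) hy2 hy2'
  have h2 := F.matching_point hE J J' hJ hJ' y hy1 hy1'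
  have hn0 := F.nu_nonneg y
  have hn1 := F.nu_le_one y
  have key : ∀ D ∈ J, |F.Wt z D y - F.Wt z' (partner J' D) y| ≤
      F.nu y * |F.om z (F.hub y) * (if D = F.comp z (F.hub y) then 1 else 0) -
        F.om z' (F.hub y) * (if partner J' D = F.comp z' (F.hub y) then 1 else 0)| +
      (1 - F.nu y) * |F.om z y * (if D = F.comp z y then 1 else 0) -
        F.om z' y * (if partner J' D = F.comp z' y then 1 else 0)| := by
    intro D _
    have e : F.Wt z D y - F.Wt z' (partner J' D) y =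
        F.nu y * (F.om z (F.hub y) * (if D = F.comp z (F.hub y) then 1 else 0) -
          F.om z' (F.hub y) * (if partner J' D = F.comp z' (F.hub y) then 1 else 0)) +
        (1 - F.nu y) * (F.om z y * (if D = F.comp z y then 1 else 0) -
          F.om z' y * (if partner J' D = F.comp z' y then 1 else 0)) := by
      unfold Wt
      ring
    rw [e]
    refine (abs_add_le _ _).trans ?_
    rw [abs_mul, abs_mul, abs_of_nonneg hn0, abs_of_nonneg (sub_nonneg.mpr hn1)]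
  refine (Finset.sum_le_sum key).trans ?_
  rw [Finset.sum_add_distrib, ← Finset.mul_sum, ← Finset.mul_sum]
  have h3 := mul_le_mul_of_nonneg_left h1 hn0
  have h4 := mul_le_mul_of_nonneg_left h2 (sub_nonneg.mpr hn1)
  calc _ ≤ F.nu y * (1 / (F.rho : ℝ) ^ 2) + (1 - F.nu y) * (1 / (F.rho : ℝ) ^ 2) := add_le_add h3 h4
    _ = 1 / (F.rho : ℝ) ^ 2 := by ring

/-- Expansion of the sum of weights against signs. -/
theorem sum_Wt_mul_sign (z y : V) (J : Finset (Set V)) (ε : Set V → ℝ)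
    (hy1 : y ∈ F.B z → F.comp z y ∈ J) (hy2 : F.hub y ∈ F.B z → F.comp z (F.hub y) ∈ J) :
    ∑ D ∈ J, ε D * F.Wt z D y = F.gSigned z ε y := by
  classical
  have key : ∀ p : V, (p ∈ F.B z → F.comp z p ∈ J) →
      ∑ D ∈ J, ε D * (F.om z p * (if D = F.comp z p then 1 else 0)) = F.om z p * ε (F.comp z p) := by
    intro p hp
    by_cases hc : F.comp z p ∈ J
    · rw [Finset.sum_eq_single (F.comp z p)]
      · simp
        ring
      · intro D _ hne
        simp [hne]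
      · intro h
        exact absurd hc h
    · have hpB : p ∉ F.B z := fun h => hc (hp h)
      rw [F.om_eq_zero_of_not_mem hpB]
      simp
  unfold Wt gSigned
  have e : ∀ D : Set V, ε D * (F.nu y * (F.om z (F.hub y) * (if D = F.comp z (F.hub y) then 1 else 0)) +
      (1 - F.nu y) * (F.om z y * (if D = F.comp z y then 1 else 0))) =
      F.nu y * (ε D * (F.om z (F.hub y) * (if D = F.comp z (F.hub y) then 1 else 0))) +
      (1 - F.nu y) * (ε D * (F.om z y * (if D = F.comp z y then 1 else 0))) := by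
    intro D
    ring
  simp only [e]
  rw [Finset.sum_add_distrib, ← Finset.mul_sum, ← Finset.mul_sum, key _ hy2, key _ hy1]

/-- The sum of the weights over states is `phi`. -/
theorem sum_Wt (z y : V) (J : Finset (Set V))
    (hy1 : y ∈ F.B z → F.comp z y ∈ J) (hy2 : F.hub y ∈ F.B z → F.comp z (F.hub y) ∈ J) :
    ∑ D ∈ J, F.Wt z D y = F.phi z y := by
  have h := F.sum_Wt_mul_sign z y J (fun _ => 1) hy1 hy2
  simp only [one_mul] at h
  rw [h]
  simp [gSigned, phi]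

end Frame

end Vale.Agent.Lib.P090K
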