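import Vale.Agent.Lib.P090K.Defs

/-!
Free group combinatorics: the step lemma for `toWord`, the valley lemma (convexity of balls in the
tree), the middle factor lemma. Blueprint section 1.
-/

namespace Vale.Agent.Lib.P090K

open FreeGroup

set_option linter.unusedSectionVars false

variable {α : Type} [DecidableEq α]

theorem norm_ltr (l : α × Bool) : FreeGroup.norm (ltr l) = 1 := by
  have : IsReduced [l] := IsReduced.singleton
  simp [ltr, FreeGroup.norm, toWord_mk, this.reduce_eq]

theorem mk_cons_eq (l : α × Bool) (u : List (α × Bool)) : FreeGroup.mk (l :: u) = ltr l * FreeGroup.mk u := by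
  rw [ltr, FreeGroup.mul_mk]
  rfl

theorem mk_append_eq (u v : List (α × Bool)) : FreeGroup.mk (u ++ v) = FreeGroup.mk u * FreeGroup.mk v := by
  rw [FreeGroup.mul_mk]

theorem ltr_linv (l : α × Bool) : ltr (linv l) = (ltr l)⁻¹ := by
  rw [ltr, ltr, FreeGroup.inv_mk]
  simp [invRev, linv]

theorem linv_linv (l : α × Bool) : linv (linv l) = l := by
  simp [linv]

theorem linv_ne (l : α × Bool) : linv l ≠ l := by
  intro h
  have := congrArg Prod.snd h
  simp [linv] at this

/-- Reduced words in terms of `linv`. -/
theorem isReduced_cons_cons_iff {a b : α × Bool} {u : List (α × Bool)} :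
    IsReduced (a :: b :: u) ↔ b ≠ linv a ∧ IsReduced (b :: u) := by
  rw [FreeGroup.isReduced_cons_cons]
  refine and_congr_left fun _ => ?_
  obtain ⟨a1, a2⟩ := a
  obtain ⟨b1, b2⟩ := b
  simp only [linv, ne_eq, Prod.mk.injEq, not_and]
  constructor
  · intro h hab
    have h1 := h hab.symm
    subst h1
    cases a2 <;> simp
  · intro h hab
    have h1 := h hab.symm
    cases a2 <;> cases b2 <;> simp_all

/-- A factor of a reduced word is reduced. -/
theorem isReduced_of_factor {L₁ L₂ : List (α × Bool)} (h : IsReduced L₂) (h' : L₁ <:+: L₂) :
    IsReduced L₁ := by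
  obtain ⟨s, t, rfl⟩ := h'
  exact List.IsChain.right_of_append (List.IsChain.left_of_append h)

/-- The step lemma: right multiplication by a letter appends it, or cancels the last letter. -/
theorem toWord_mul_ltr (g : FreeGroup α) (l : α × Bool) :
    toWord (g * ltr l) =
      if (toWord g).getLast? = some (linv l) then (toWord g).dropLast else toWord g ++ [l] := by
  have hg : IsReduced (toWord g) := isReduced_toWord
  have hm : toWord (g * ltr l) = reduce (toWord g ++ [l]) := by
    have : ltr l = FreeGroup.mk [l] := rfl
    rw [toWord_mul, this, toWord_mk]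
    have h1 : IsReduced [l] := IsReduced.singleton
    rw [h1.reduce_eq]
  rw [hm]
  rcases List.eq_nil_or_concat (toWord g) with h0 | ⟨L, a, hL⟩
  · rw [h0]
    have h1 : IsReduced [l] := IsReduced.singleton
    simp [h1.reduce_eq]
  · rw [hL] at hg ⊢
    simp only [List.concat_eq_append] at hg ⊢
    simp only [List.getLast?_append, List.getLast?_singleton, Option.some_or, Option.some.injEq]
    split_ifs with h
    · subst h
      have e : reduce (L ++ [linv l] ++ [l]) = reduce L := by
        apply reduce.Step.eq
        have := @Red.Step.not_rev α L [] l.1 l.2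
        simpa [linv, List.append_assoc] using this
      rw [e, IsReduced.reduce_eq (List.IsChain.left_of_append hg : IsReduced L)]
      simp
    · have h2 : IsReduced ([a] ++ [l]) := by
        show IsReduced [a, l]
        rw [isReduced_cons_cons_iff]
        refine ⟨?_, IsReduced.singleton⟩
        intro h3
        apply h
        rw [h3, linv_linv]
      exact (IsReduced.append_overlap hg h2 (by simp)).reduce_eq

/-- A step either appends or cancels. -/
theorem step_cases (g : FreeGroup α) (l : α × Bool) :
    (toWord (g * ltr l) = toWord g ++ [l]) ∨
      (toWord (g * ltr l) = (toWord g).dropLast ∧ 0 < (toWord g).length) := by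
  rw [toWord_mul_ltr]
  split_ifs with h
  · right
    refine ⟨rfl, ?_⟩
    rw [List.length_pos_iff]
    rintro h0
    simp [h0] at h
  · left
    rfl

/-- No cancellation when the word ends by the letter `a` and `a :: u` is reduced. -/
theorem toWord_mul_of_last (g : FreeGroup α) {L : List (α × Bool)} {a : α × Bool} {u : List (α × Bool)}
    (hg : toWord g = L ++ [a]) (hu : IsReduced (a :: u)) :
    toWord (g * FreeGroup.mk u) = L ++ a :: u := by
  have hr : IsReduced (toWord g) := isReduced_toWord
  rw [hg] at hr
  have hred : IsReduced (L ++ a :: u) := by
    have := IsReduced.append_overlap (L₁ := L) (L₂ := [a]) (L₃ := u) hr hu (by simp)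
    simpa using this
  have hg' : g = FreeGroup.mk (L ++ [a]) := by
    rw [← hg, FreeGroup.mk_toWord]
  rw [hg', FreeGroup.mul_mk, toWord_mk]
  simpa using hred.reduce_eq

/-- The valley lemma: along a reduced word the FreeGroup.norm has no interior maximum. -/
theorem valley {u₁ u₂ : List (α × Bool)} (h : IsReduced (u₁ ++ u₂)) (g : FreeGroup α) :
    FreeGroup.norm (g * FreeGroup.mk u₁) ≤ max (FreeGroup.norm g) (FreeGroup.norm (g * FreeGroup.mk (u₁ ++ u₂))) := by
  induction u₁ generalizing g with
  | nil =>
    apply le_max_of_le_left
    have : FreeGroup.mk ([] : List (α × Bool)) = 1 := rfl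
    rw [this, mul_one]
  | cons l u₁ ih =>
    have e1 : ∀ u : List (α × Bool), g * FreeGroup.mk (l :: u) = g * ltr l * FreeGroup.mk u := by
      intro u
      rw [mk_cons_eq, mul_assoc]
    have hr : IsReduced (u₁ ++ u₂) := List.IsChain.right_of_append (l₁ := [l]) h
    rcases step_cases g l with hup | ⟨hdown, hpos⟩
    · apply le_max_of_le_right
      have h1 : IsReduced (l :: u₁) := List.IsChain.left_of_append h
      have h2 : IsReduced (l :: (u₁ ++ u₂)) := h
      rw [show (l :: u₁) ++ u₂ = l :: (u₁ ++ u₂) from rfl, e1, e1]
      have e2 := toWord_mul_of_last (g * ltr l) hup h1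
      have e3 := toWord_mul_of_last (g * ltr l) hup h2
      simp only [FreeGroup.norm, e2, e3]
      simp
    · have h3 := ih hr (g * ltr l)
      rw [show (l :: u₁) ++ u₂ = l :: (u₁ ++ u₂) from rfl, e1, e1]
      refine h3.trans (max_le_max ?_ le_rfl)
      simp only [FreeGroup.norm, hdown]
      simp

/-- Along a reduced word, the tail of the word eventually is a suffix. -/
theorem drop_norm_suffix {w : List (α × Bool)} (hw : IsReduced w) (g : FreeGroup α) :
    w.drop (FreeGroup.norm g) <:+ toWord (g * FreeGroup.mk w) := by
  induction w generalizing g with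
  | nil => simp
  | cons l w ih =>
    have hr : IsReduced w := List.IsChain.right_of_append (l₁ := [l]) hw
    have e1 : g * FreeGroup.mk (l :: w) = g * ltr l * FreeGroup.mk w := by
      rw [mk_cons_eq, mul_assoc]
    rcases step_cases g l with hup | ⟨hdown, hpos⟩
    · rw [e1, toWord_mul_of_last (g * ltr l) hup hw]
      exact (List.drop_suffix _ _).trans (List.suffix_append _ _)
    · have hn : FreeGroup.norm g = FreeGroup.norm (g * ltr l) + 1 := by
        simp only [FreeGroup.norm, hdown, List.length_dropLast]
        omega
      rw [e1, hn, List.drop_succ_cons]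
      exact ih hr _

/-- Each letter deletes at most one letter at the end. -/
theorem take_head_mul (x h : FreeGroup α) :
    (toWord x).take ((toWord x).length - FreeGroup.norm h) <+: toWord (x * h) := by
  have key : ∀ (u : List (α × Bool)) (x : FreeGroup α),
      (toWord x).take ((toWord x).length - u.length) <+: toWord (x * FreeGroup.mk u) := by
    intro u
    induction u with
    | nil =>
      intro x
      have : FreeGroup.mk ([] : List (α × Bool)) = 1 := rfl
      rw [this, mul_one]
      simp
    | cons l u ih =>
      intro x
      have e1 : x * FreeGroup.mk (l :: u) = x * ltr l * FreeGroup.mk u := by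
        rw [mk_cons_eq, mul_assoc]
      rw [e1]
      refine List.IsPrefix.trans ?_ (ih (x * ltr l))
      simp only [List.length_cons]
      rcases step_cases x l with hup | ⟨hdown, hpos⟩
      · rw [hup, List.length_append, List.length_singleton]
        by_cases h3 : (toWord x).length + 1 - u.length ≤ (toWord x).length
        · rw [List.take_append_of_le_length h3]
          exact List.take_prefix_take_left (by omega)
        · have e : (toWord x ++ [l]).take ((toWord x).length + 1 - u.length) = toWord x ++ [l] :=
            List.take_of_length_le (by simp; omega)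
          rw [e]
          exact (List.take_prefix _ _).trans (List.prefix_append _ _)
      · rw [hdown]
        rw [List.length_dropLast]
        have h5 : (toWord x).dropLast = (toWord x).take ((toWord x).length - 1) := by
          rw [List.dropLast_eq_take]
        rw [h5, List.take_take]
        have h6 : (toWord x).length - (u.length + 1) = min ((toWord x).length - 1 - u.length) ((toWord x).length - 1) := by
          omega
        rw [h6]
  have h0 := key (toWord h) x
  rw [FreeGroup.mk_toWord] at h0
  exact h0

/-- The middle factor lemma. -/
theorem middle_factor {w : List (α × Bool)} (hw : IsReduced w) (g h : FreeGroup α) :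
    ((w.drop (FreeGroup.norm g)).take (w.length - FreeGroup.norm g - FreeGroup.norm h)) <:+: toWord (g * FreeGroup.mk w * h) := by
  obtain ⟨P, hP⟩ := drop_norm_suffix hw g
  have hpre := take_head_mul (g * FreeGroup.mk w) h
  refine List.IsInfix.trans ?_ hpre.isInfix
  rw [← hP]
  set S := w.drop (FreeGroup.norm g) with hS
  have hlenS : S.length = w.length - FreeGroup.norm g := by
    simp [hS]
  rw [List.length_append]
  by_cases hc : FreeGroup.norm h ≤ S.length
  · have e : P.length + S.length - FreeGroup.norm h = P.length + (S.length - FreeGroup.norm h) := by omega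
    rw [e, List.take_length_add_append, hlenS]
    exact (List.suffix_append _ _).isInfix
  · have e : w.length - FreeGroup.norm g - FreeGroup.norm h = 0 := by omega
    rw [e]
    simp

end Vale.Agent.Lib.P090K
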